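import Vale.Agent.P227.Mirror.Slice

/-!
P227, pairs with common reflections: the induction, the change of linear coordinates and the case
of one reflection of three-space.
-/

noncomputable section

namespace Vale.Agent.P227.Mirror

open MeasureTheory Set
open Vale.Agent.P227.Zono Vale.Agent.P227.Zono.ConeAux

variable {d : ℕ}

lemma subset_logComb {K : Set (Fin d → ℝ)} (hK : IsCompact K) (L : Set (Fin d → ℝ)) :
    K ⊆ logComb K L 0 := fun x hx y => by
  simpa using le_supp hK y hx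

lemma subset_logComb_one {L : Set (Fin d → ℝ)} (hL : IsCompact L) (K : Set (Fin d → ℝ)) :
    L ⊆ logComb K L 1 := fun x hx y => by
  simpa using le_supp hL y hx

/-- Sign changes of the first `m` coordinates in dimension `m + 2`. -/
theorem coord : ∀ (m : ℕ) (K L : Set (Fin (m + 2) → ℝ)) (t : ℝ), IsBody K → IsBody L →
    (∀ i : Fin (m + 2), (i : ℕ) < m → ∀ x ∈ K, coordFlip i x ∈ K) →
    (∀ i : Fin (m + 2), (i : ℕ) < m → ∀ x ∈ L, coordFlip i x ∈ L) → 0 ≤ t → t ≤ 1 →
    vol K ^ (1 - t) * vol L ^ t ≤ vol (logComb K L t) := by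
  intro m
  induction m with
  | zero => intro K L t hK hL _ _ h0 h1; exact planar hK hL h0 h1
  | succ m ih =>
    intro K L t hK hL hKf hLf h0 h1
    have hW := isBody_logComb (Nat.succ_pos _) hK hL h0 h1
    rcases h0.eq_or_lt with rfl | h0'
    · simpa [vol] using ENNReal.toReal_mono hW.1.measure_lt_top.ne
        (measure_mono (μ := volume) (subset_logComb hK.1 L))
    rcases h1.eq_or_lt with rfl | h1'
    · simpa [vol] using ENNReal.toReal_mono hW.1.measure_lt_top.ne
        (measure_mono (μ := volume) (subset_logComb_one hL.1 K))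
    refine step hK hL (hKf 0 (Nat.succ_pos m)) (hLf 0 (Nat.succ_pos m)) h0' h1' fun z₀ z₁ hA hB => ?_
    exact ih _ _ t hA hB
      (fun i hi x hx => slice_coordFlip i (hKf i.succ (by simpa using hi)) z₀ hx)
      (fun i hi x hx => slice_coordFlip i (hLf i.succ (by simpa using hi)) z₁ hx) h0 h1

/-- The images under a linear change of coordinates. -/
lemma logComb_image_subset (T : (Fin d → ℝ) ≃ₗ[ℝ] (Fin d → ℝ)) (K L : Set (Fin d → ℝ)) (t : ℝ) :
    logComb (T '' K) (T '' L) t ⊆ T '' logComb K L t := by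
  classical
  intro x hx
  refine ⟨T.symm x, fun y => ?_, T.apply_symm_apply x⟩
  set y' : Fin d → ℝ := fun j => ∑ i, y i * T.symm (Pi.single j 1) i
  have hy : ∀ w, ∑ j, y' j * w j = ∑ i, y i * T.symm w i := fun w => by
    conv_rhs => rw [pi_eq_sum_univ' w, map_sum]
    simp only [y', map_smul, Finset.sum_apply, Pi.smul_apply, smul_eq_mul, Finset.mul_sum,
      Finset.sum_mul]
    rw [Finset.sum_comm]
    exact Finset.sum_congr rfl fun i _ => Finset.sum_congr rfl fun j _ => by ring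
  have hs : ∀ M : Set (Fin d → ℝ), supp (T '' M) y' = supp M y := fun M => by
    simp only [supp, image_image, hy, LinearEquiv.symm_apply_apply]
  have h := hx y'
  rwa [hy, hs, hs] at h

lemma isBody_image (T : (Fin d → ℝ) ≃ₗ[ℝ] (Fin d → ℝ)) {K : Set (Fin d → ℝ)} (hK : IsBody K) :
    IsBody (T '' K) := by
  refine ⟨hK.1.image (LinearMap.continuous_of_finiteDimensional T.toLinearMap),
    hK.2.1.linear_image T.toLinearMap, ?_, ?_⟩
  · rintro _ ⟨x, hx, rfl⟩
    exact ⟨-x, hK.2.2.1 x hx, map_neg T x⟩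
  · have e : vol (T '' K) = |LinearMap.det T.toLinearMap| * vol K := by
      show (volume (T.toLinearMap '' K)).toReal = _
      rw [Measure.addHaar_image_linearMap, ENNReal.toReal_mul,
        ENNReal.toReal_ofReal (abs_nonneg _)]
      rfl
    rw [e]
    exact mul_pos (abs_pos.2 T.isUnit_det'.ne_zero) hK.2.2.2

/-- The inequality for bodies invariant, in the coordinates `T`, under `n - 2` sign changes. -/
theorem linearCoord (m : ℕ) (T : (Fin (m + 2) → ℝ) ≃ₗ[ℝ] (Fin (m + 2) → ℝ))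
    (K L : Set (Fin (m + 2) → ℝ)) (t : ℝ) (hK : IsBody K) (hL : IsBody L)
    (hKf : ∀ i : Fin (m + 2), (i : ℕ) < m → ∀ x ∈ K, T.symm (coordFlip i (T x)) ∈ K)
    (hLf : ∀ i : Fin (m + 2), (i : ℕ) < m → ∀ x ∈ L, T.symm (coordFlip i (T x)) ∈ L)
    (h0 : 0 ≤ t) (h1 : t ≤ 1) : vol K ^ (1 - t) * vol L ^ t ≤ vol (logComb K L t) := by
  have h := coord m (T '' K) (T '' L) t (isBody_image T hK) (isBody_image T hL)
    (fun i hi => by rintro _ ⟨x, hx, rfl⟩; exact ⟨_, hKf i hi x hx, T.apply_symm_apply _⟩)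
    (fun i hi => by rintro _ ⟨x, hx, rfl⟩; exact ⟨_, hLf i hi x hx, T.apply_symm_apply _⟩) h0 h1
  set c := |LinearMap.det T.toLinearMap|
  have hc : 0 < c := abs_pos.2 T.isUnit_det'.ne_zero
  have e : ∀ M : Set (Fin (m + 2) → ℝ), vol (T '' M) = c * vol M := fun M => by
    show (volume (T.toLinearMap '' M)).toReal = _
    rw [Measure.addHaar_image_linearMap, ENNReal.toReal_mul,
      ENNReal.toReal_ofReal (abs_nonneg _)]
    rfl
  have hW := isBody_image T (isBody_logComb (Nat.succ_pos _) hK hL h0 h1)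
  have h2 := h.trans (ENNReal.toReal_mono hW.1.measure_lt_top.ne
    (measure_mono (μ := volume) (logComb_image_subset T K L t)))
  change vol (T '' K) ^ (1 - t) * vol (T '' L) ^ t ≤ vol (T '' logComb K L t) at h2
  rw [e, e, e, Real.mul_rpow hc.le hK.2.2.2.le, Real.mul_rpow hc.le hL.2.2.2.le, mul_mul_mul_comm,
    ← Real.rpow_add hc, sub_add_cancel, Real.rpow_one] at h2
  exact le_of_mul_le_mul_left h2 hc

/-- The linear reflection fixing the kernel of `φ` and negating `e`, where `φ e = 1`. -/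
def reflect (φ : (Fin d → ℝ) →ₗ[ℝ] ℝ) (e x : Fin d → ℝ) : Fin d → ℝ := x - (2 * φ x) • e

/-- Coordinates in which a reflection of three-space is the sign change of the first one. -/
theorem exists_coords (φ : (Fin 3 → ℝ) →ₗ[ℝ] ℝ) (e : Fin 3 → ℝ) (he : φ e = 1) :
    ∃ T : (Fin 3 → ℝ) ≃ₗ[ℝ] (Fin 3 → ℝ), ∀ x, T.symm (coordFlip 0 (T x)) = reflect φ e x := by
  classical
  have hsurj : Function.Surjective φ := fun r => ⟨r • e, by simp [he]⟩
  have hrank : Module.finrank ℝ (LinearMap.ker φ) = 2 := by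
    have h := LinearMap.finrank_range_add_finrank_ker φ
    rw [LinearMap.range_eq_top.2 hsurj] at h
    simp at h
    omega
  let ψ : LinearMap.ker φ ≃ₗ[ℝ] (Fin 2 → ℝ) := (Module.finBasisOfFinrankEq ℝ _ hrank).equivFun
  let pr : (Fin 3 → ℝ) →ₗ[ℝ] LinearMap.ker φ :=
    (LinearMap.id - φ.smulRight e).codRestrict _ fun x => by simp [he]
  have hprv : ∀ y, (pr y : Fin 3 → ℝ) = y - φ y • e := fun y => rfl
  let T : (Fin 3 → ℝ) ≃ₗ[ℝ] (Fin 3 → ℝ) :=
    { toFun := fun x => Fin.cons (φ x) (ψ (pr x))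
      map_add' := fun x y => by
        funext i; refine Fin.cases ?_ (fun j => ?_) i <;> simp
      map_smul' := fun r x => by
        funext i; refine Fin.cases ?_ (fun j => ?_) i <;> simp
      invFun := fun v => v 0 • e + (ψ.symm (Fin.tail v) : Fin 3 → ℝ)
      left_inv := fun x => by simp [hprv]
      right_inv := fun v => by
        have hk : φ (ψ.symm (Fin.tail v) : Fin 3 → ℝ) = 0 := (ψ.symm (Fin.tail v)).2
        have hφ : φ (v 0 • e + (ψ.symm (Fin.tail v) : Fin 3 → ℝ)) = v 0 := by simp [he, hk]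
        have hpr : pr (v 0 • e + (ψ.symm (Fin.tail v) : Fin 3 → ℝ)) = ψ.symm (Fin.tail v) :=
          Subtype.ext (by rw [hprv, hφ]; module)
        simp only [hφ, hpr, LinearEquiv.apply_symm_apply]
        exact Fin.cons_self_tail v }
  refine ⟨T, fun x => ?_⟩
  rw [LinearEquiv.symm_apply_eq]
  have hφ : φ (reflect φ e x) = -φ x := by simp [reflect, he]; ring
  have hpr : pr (reflect φ e x) = pr x := Subtype.ext (by
    rw [hprv, hprv, hφ, reflect]; module)
  show coordFlip 0 (Fin.cons (φ x) (ψ (pr x))) = Fin.cons (φ (reflect φ e x)) (ψ (pr (reflect φ e x)))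
  rw [coordFlip_zero_cons, hpr, hφ]

/-- The inequality for pairs in three-space invariant under one common linear reflection. -/
theorem oneReflection (φ : (Fin 3 → ℝ) →ₗ[ℝ] ℝ) (e : Fin 3 → ℝ) (he : φ e = 1)
    (K L : Set (Fin 3 → ℝ)) (t : ℝ) (hK : IsBody K) (hL : IsBody L)
    (hKf : ∀ x ∈ K, reflect φ e x ∈ K) (hLf : ∀ x ∈ L, reflect φ e x ∈ L)
    (h0 : 0 ≤ t) (h1 : t ≤ 1) : vol K ^ (1 - t) * vol L ^ t ≤ vol (logComb K L t) := by
  obtain ⟨T, hT⟩ := exists_coords φ e he
  refine linearCoord 1 T K L t hK hL (fun i hi x hx => ?_) (fun i hi x hx => ?_) h0 h1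
  · obtain rfl : i = 0 := Fin.ext (Nat.lt_one_iff.1 hi)
    exact hT x ▸ hKf x hx
  · obtain rfl : i = 0 := Fin.ext (Nat.lt_one_iff.1 hi)
    exact hT x ▸ hLf x hx

end Vale.Agent.P227.Mirror
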