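import Vale.Agent.P227.Zono.GaugeFacts
import Vale.Agent.P227.Zono.ConeAssembly
import Vale.Agent.P227.Zono.ConeLimit
import Vale.Agent.P227.Zono.ConePair

/-!
P227, pairs with common reflections: every planar symmetric body is a zonoid. The zonotope with
generators `c k • p k`, `p k` normal to the direction `k π / N` and `c k` the second difference of
the support function, has the same support values at all these directions.
-/

noncomputable section

namespace Vale.Agent.P227.Mirror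

open MeasureTheory Set Real
open Vale.Agent.P227.Zono Vale.Agent.P227.Zono.ConeAux
open scoped Topology

section General

variable {d : ℕ}

lemma dot_sum_smul (y : Fin d → ℝ) {m : ℕ} (a : Fin m → Fin d → ℝ) (l : Fin m → ℝ) :
    ∑ i, y i * (∑ k, l k • a k) i = ∑ k, l k * ∑ i, y i * a k i := by
  simp only [Finset.sum_apply, Pi.smul_apply, smul_eq_mul, Finset.mul_sum]
  rw [Finset.sum_comm]
  exact Finset.sum_congr rfl fun k _ => Finset.sum_congr rfl fun i _ => by ring

lemma supp_zonot {m : ℕ} (a : Fin m → Fin d → ℝ) (y : Fin d → ℝ) :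
    supp (zonot a 1) y = ∑ k, |∑ i, y i * a k i| := by
  classical
  set l : Fin m → ℝ := fun k => if 0 ≤ ∑ i, y i * a k i then 1 else -1
  have hl : ∑ k, l k • a k ∈ zonot a 1 := by
    refine ⟨l, fun k _ => ?_, rfl⟩
    simp only [l, Pi.one_apply, mem_Icc]
    split_ifs <;> norm_num
  refine le_antisymm (supp_le ⟨_, hl⟩ y ?_) ?_
  · rintro _ ⟨r, hr, rfl⟩
    rw [dot_sum_smul]
    refine Finset.sum_le_sum fun k _ => ?_
    have hk := hr k trivial
    simp only [Pi.one_apply, mem_Icc] at hk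
    calc r k * ∑ i, y i * a k i ≤ |r k * ∑ i, y i * a k i| := le_abs_self _
      _ = |r k| * |∑ i, y i * a k i| := abs_mul _ _
      _ ≤ 1 * |∑ i, y i * a k i| :=
        mul_le_mul_of_nonneg_right (abs_le.2 hk) (abs_nonneg _)
      _ = _ := one_mul _
  · refine le_trans (le_of_eq ?_) (le_supp (isCompact_zonot a 1) y hl)
    rw [dot_sum_smul]
    refine Finset.sum_congr rfl fun k _ => ?_
    simp only [l]
    split_ifs with h
    · rw [abs_of_nonneg h, one_mul]
    · rw [abs_of_neg (not_le.1 h), neg_one_mul]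

lemma supp_add_le {K : Set (Fin d → ℝ)} (hK : IsCompact K) (hne : K.Nonempty) (y z : Fin d → ℝ) :
    supp K (y + z) ≤ supp K y + supp K z := by
  refine supp_le hne _ fun x hx => ?_
  have e : ∑ i, (y + z) i * x i = ∑ i, y i * x i + ∑ i, z i * x i := by
    simp [add_mul, Finset.sum_add_distrib]
  rw [e]
  exact add_le_add (le_supp hK y hx) (le_supp hK z hx)

lemma supp_smul_le {K : Set (Fin d → ℝ)} (hK : IsCompact K) (hne : K.Nonempty) {c : ℝ}
    (hc : 0 ≤ c) (y : Fin d → ℝ) : supp K (c • y) ≤ c * supp K y := by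
  refine supp_le hne _ fun x hx => ?_
  have e : ∑ i, (c • y) i * x i = c * ∑ i, y i * x i := by
    simp [Finset.mul_sum, mul_assoc]
  rw [e]
  exact mul_le_mul_of_nonneg_left (le_supp hK y hx) hc

lemma mem_of_le_supp {K : Set (Fin d → ℝ)} (hK : IsCompact K) (hc : Convex ℝ K)
    (hne : K.Nonempty) {x : Fin d → ℝ} (h : ∀ y : Fin d → ℝ, ∑ i, y i * x i ≤ supp K y) :
    x ∈ K := by
  classical
  by_contra hx
  obtain ⟨f, u, hfK, hfx⟩ := geometric_hahn_banach_closed_point hc hK.isClosed hx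
  have hf : ∀ p : Fin d → ℝ, ∑ i, f (Pi.single i 1) * p i = f p := fun p => by
    conv_rhs => rw [pi_eq_sum_univ' p, map_sum]
    exact Finset.sum_congr rfl fun i _ => by rw [map_smul, smul_eq_mul, mul_comm]
  have h2 : supp K (fun i => f (Pi.single i 1)) ≤ u :=
    supp_le hne _ fun p hp => by rw [hf]; exact (hfK p hp).le
  have h1 := h fun i => f (Pi.single i 1)
  rw [hf] at h1
  linarith

lemma body_nonempty {K : Set (Fin d → ℝ)} (hK : IsBody K) : K.Nonempty := by
  by_contra h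
  have := hK.2.2.2
  simp [not_nonempty_iff_eq_empty.1 h, vol] at this

/-- The combination of two bodies is a body. -/
lemma isBody_logComb (hd : 0 < d) {K L : Set (Fin d → ℝ)} (hK : IsBody K) (hL : IsBody L) {t : ℝ}
    (ht0 : 0 ≤ t) (ht1 : t ≤ 1) : IsBody (logComb K L t) := by
  classical
  set F : (Fin d → ℝ) → ℝ := fun y => supp K y ^ (1 - t) * supp L y ^ t with hF
  have hclosed : IsClosed (logComb K L t) := by
    have : logComb K L t = ⋂ y : Fin d → ℝ, {x | ∑ i, y i * x i ≤ F y} := by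
      ext x; simp [logComb, hF]
    rw [this]
    exact isClosed_iInter fun y => isClosed_le (by fun_prop) continuous_const
  have hcomp : IsCompact (logComb K L t) := by
    refine (isCompact_univ_pi fun i => isCompact_Icc
      (a := -F (Pi.single i (-1))) (b := F (Pi.single i 1))).of_isClosed_subset hclosed ?_
    intro x hx i _
    have h1 : (∑ j, (Pi.single i (1 : ℝ) : Fin d → ℝ) j * x j) ≤ F (Pi.single i 1) := hx _
    have h2 : (∑ j, (Pi.single i (-1 : ℝ) : Fin d → ℝ) j * x j) ≤ F (Pi.single i (-1)) := hx _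
    simp [Pi.single_apply, ite_mul] at h1 h2
    exact ⟨by linarith, h1⟩
  have hconv : Convex ℝ (logComb K L t) := by
    intro x hx z hz a b ha hb hab y
    have e : ∑ i, y i * (a • x + b • z) i = a * ∑ i, y i * x i + b * ∑ i, y i * z i := by
      simp [mul_add, Finset.sum_add_distrib, Finset.mul_sum, mul_left_comm]
    rw [e]
    calc a * ∑ i, y i * x i + b * ∑ i, y i * z i ≤ a * F y + b * F y :=
          add_le_add (mul_le_mul_of_nonneg_left (hx y) ha) (mul_le_mul_of_nonneg_left (hz y) hb)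
      _ = F y := by rw [← add_mul, hab, one_mul]
  have hsym : ∀ x ∈ logComb K L t, -x ∈ logComb K L t := by
    intro x hx y
    have h : ∑ i, (-y) i * x i ≤ supp K (-y) ^ (1 - t) * supp L (-y) ^ t := hx (-y)
    rw [PairAux.supp_neg hK, PairAux.supp_neg hL] at h
    simpa using h
  obtain ⟨cK, hcK, hKl⟩ := PairAux.exists_lower hd hK
  obtain ⟨cL, hcL, hLl⟩ := PairAux.exists_lower hd hL
  set c := min cK cL
  have hc : 0 < c := lt_min hcK hcL
  have hdR : (0 : ℝ) < d := by exact_mod_cast hd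
  have hball : Metric.ball (0 : Fin d → ℝ) (c / d) ⊆ logComb K L t := by
    intro x hx y
    rw [mem_ball_zero_iff, lt_div_iff₀ hdR] at hx
    have h0 : 0 ≤ c * ‖y‖ := mul_nonneg hc.le (norm_nonneg _)
    have h1 : c * ‖y‖ ≤ supp K y :=
      (mul_le_mul_of_nonneg_right (min_le_left _ _) (norm_nonneg _)).trans (hKl y)
    have h2 : c * ‖y‖ ≤ supp L y :=
      (mul_le_mul_of_nonneg_right (min_le_right _ _) (norm_nonneg _)).trans (hLl y)
    calc ∑ i, y i * x i ≤ ‖y‖ * ((d : ℝ) * ‖x‖) := PairAux.dot_le y x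
      _ ≤ c * ‖y‖ := by rw [mul_comm c]; exact mul_le_mul_of_nonneg_left (by linarith) (norm_nonneg _)
      _ = (c * ‖y‖) ^ (1 - t) * (c * ‖y‖) ^ t := by
          rw [← Real.rpow_add' h0 (by norm_num)]; simp
      _ ≤ _ := mul_le_mul (Real.rpow_le_rpow h0 h1 (by linarith)) (Real.rpow_le_rpow h0 h2 ht0)
          (Real.rpow_nonneg h0 _) (Real.rpow_nonneg (h0.trans h1) _)
  refine ⟨hcomp, hconv, hsym, ENNReal.toReal_pos (ne_of_gt ?_) hcomp.measure_lt_top.ne⟩
  exact lt_of_lt_of_le (Metric.measure_ball_pos _ _ (by positivity)) (measure_mono hball)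

end General

/-! ### The plane -/

/-- The direction at angle `φ`. -/
def dir (φ : ℝ) : Fin 2 → ℝ := ![cos φ, sin φ]

/-- The normal to the direction at angle `φ`. -/
def nor (φ : ℝ) : Fin 2 → ℝ := ![-sin φ, cos φ]

lemma dot_nor (φ ψ : ℝ) : ∑ i, dir φ i * nor ψ i = sin (φ - ψ) := by
  simp [dir, nor, Fin.sum_univ_two, sin_sub]
  ring

lemma dir_add_pi (φ : ℝ) : dir (φ + π) = -dir φ := by
  funext i; fin_cases i <;> simp [dir, cos_add_pi, sin_add_pi]

lemma dir_sub_add_dir_add (φ θ : ℝ) : dir (φ - θ) + dir (φ + θ) = (2 * cos θ) • dir φ := by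
  funext i; fin_cases i <;> simp [dir, cos_sub, cos_add, sin_sub, sin_add] <;> ring

lemma dir_interp (θ δ φ : ℝ) :
    sin θ • dir (φ + δ) = sin (θ - δ) • dir φ + sin δ • dir (φ + θ) := by
  funext i; fin_cases i <;> simp [dir, cos_add, sin_sub, sin_add] <;> ring

lemma norm_dir_le (φ : ℝ) : ‖dir φ‖ ≤ 1 := by
  refine (pi_norm_le_iff_of_nonneg zero_le_one).2 fun i => ?_
  fin_cases i <;> simp [dir, abs_cos_le_one, abs_sin_le_one]

lemma half_le_norm_dir (φ : ℝ) : 1 / 2 ≤ ‖dir φ‖ := by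
  have h0 : |cos φ| ≤ ‖dir φ‖ := by simpa [dir] using norm_le_pi_norm (dir φ) 0
  have h1 : |sin φ| ≤ ‖dir φ‖ := by simpa [dir] using norm_le_pi_norm (dir φ) 1
  nlinarith [sin_sq_add_cos_sq φ, sq_abs (sin φ), sq_abs (cos φ), abs_nonneg (sin φ),
    abs_nonneg (cos φ), norm_nonneg (dir φ)]

lemma norm_dir_sub_le (φ ψ : ℝ) : ‖dir φ - dir ψ‖ ≤ |φ - ψ| := by
  refine (pi_norm_le_iff_of_nonneg (abs_nonneg _)).2 fun i => ?_
  fin_cases i <;> simp [dir, abs_cos_sub_cos_le, abs_sin_sub_sin_le]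

/-- Every vector is up to sign a multiple of a direction in `[0, π]`. -/
lemma exists_polar (v : Fin 2 → ℝ) : ∃ (ρ φ : ℝ),
    0 ≤ ρ ∧ 0 ≤ φ ∧ φ ≤ π ∧ (v = ρ • dir φ ∨ v = -(ρ • dir φ)) := by
  suffices H : ∀ w : Fin 2 → ℝ, 0 ≤ w 1 → ∃ (ρ φ : ℝ),
      0 ≤ ρ ∧ 0 ≤ φ ∧ φ ≤ π ∧ w = ρ • dir φ by
    rcases le_or_gt 0 (v 1) with h | h
    · obtain ⟨ρ, φ, a, b, c, e⟩ := H v h
      exact ⟨ρ, φ, a, b, c, Or.inl e⟩
    · obtain ⟨ρ, φ, a, b, c, e⟩ := H (-v) (by simp; linarith)
      exact ⟨ρ, φ, a, b, c, Or.inr (by rw [← e, neg_neg])⟩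
  intro w hw
  set ρ := √(w 0 ^ 2 + w 1 ^ 2) with hρ
  have hρ0 : 0 ≤ ρ := sqrt_nonneg _
  have hsq : ρ ^ 2 = w 0 ^ 2 + w 1 ^ 2 := sq_sqrt (by positivity)
  rcases hρ0.eq_or_lt with h | h
  · refine ⟨0, 0, le_rfl, le_rfl, pi_pos.le, ?_⟩
    have h2 : w 0 ^ 2 + w 1 ^ 2 = 0 := by rw [← hsq, ← h]; ring
    funext i
    fin_cases i <;> simp <;> nlinarith
  · have hb : |w 0| ≤ ρ := by
      nlinarith [sq_abs (w 0), abs_nonneg (w 0), sq_nonneg (w 1)]
    have hb' := abs_le.1 hb
    refine ⟨ρ, arccos (w 0 / ρ), hρ0, arccos_nonneg _, arccos_le_pi _, ?_⟩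
    have hc : cos (arccos (w 0 / ρ)) = w 0 / ρ :=
      cos_arccos (by rw [le_div_iff₀ h]; linarith) (by rw [div_le_one h]; linarith)
    have hs : sin (arccos (w 0 / ρ)) = w 1 / ρ := by
      rw [sin_arccos, show 1 - (w 0 / ρ) ^ 2 = (w 1 / ρ) ^ 2 by
        field_simp; linarith [hsq]]
      exact sqrt_sq (by positivity)
    funext i
    fin_cases i
    · simp [dir, hc]; field_simp
    · simp [dir, hs]; field_simp

lemma abs_sin_add_int_mul_pi (x : ℝ) (q : ℤ) : |sin (x + q * π)| = |sin x| := by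
  rw [sin_add_int_mul_pi, abs_mul, abs_zpow, abs_neg, abs_one, one_zpow, one_mul]

lemma sum_range_shift {N : ℕ} (g : ℤ → ℝ) (hg : ∀ k, g (k + N) = g k) :
    ∑ k ∈ Finset.range N, g ((k : ℤ) + 1) = ∑ k ∈ Finset.range N, g k := by
  have h1 := Finset.sum_range_succ' (fun k : ℕ => g k) N
  have h2 := Finset.sum_range_succ (fun k : ℕ => g k) N
  have h3 := hg 0
  rw [zero_add] at h3
  push_cast at h1 h2
  linarith

/-- The discrete identity: second differences of periodic values, against `|sin|`. -/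
lemma sum_second_diff {N : ℕ} (hN : 2 ≤ N) (f : ℤ → ℝ) (hf : ∀ k, f (k + N) = f k) (m : ℤ) :
    ∑ k ∈ Finset.range N, (f (k - 1) + f (k + 1) - 2 * cos (π / N) * f k) *
        |sin ((m - k : ℝ) * (π / N))| = 2 * sin (π / N) * f m := by
  set θ := π / N with hθdef
  have hN0 : (0 : ℝ) < N := by exact_mod_cast (by omega : 0 < N)
  have hθN : (N : ℝ) * θ = π := by rw [hθdef]; field_simp
  have hθ0 : 0 ≤ θ := by positivity
  set s : ℤ → ℝ := fun j => |sin (((m : ℝ) - j) * θ)| with hsdef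
  have hs : ∀ j, s (j + N) = s j := fun j => by
    simp only [hsdef]
    rw [show (((m : ℝ) - ((j + (N : ℤ) : ℤ) : ℝ)) * θ) =
        ((m : ℝ) - j) * θ + ((-1 : ℤ) : ℝ) * π by push_cast; rw [← hθN]; ring,
      abs_sin_add_int_mul_pi]
  have hfneg : ∀ k, f (k + N - 1) = f (k - 1) := fun k => by
    rw [← hf (k - 1)]; ring_nf
  have hsneg : ∀ k, s (k + N - 1) = s (k - 1) := fun k => by
    rw [← hs (k - 1)]; ring_nf
  have e1 : ∑ k ∈ Finset.range N, f ((k : ℤ) - 1) * s k =
      ∑ k ∈ Finset.range N, f k * s (k + 1) := by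
    rw [← sum_range_shift (fun k => f (k - 1) * s k) fun k => by rw [hs, hfneg]]
    exact Finset.sum_congr rfl fun k _ => by simp
  have e2 : ∑ k ∈ Finset.range N, f ((k : ℤ) + 1) * s k =
      ∑ k ∈ Finset.range N, f k * s (k - 1) := by
    rw [← sum_range_shift (fun k => f k * s (k - 1)) fun k => by rw [hf, hsneg]]
    exact Finset.sum_congr rfl fun k _ => by simp
  have hNz : (N : ℤ) ≠ 0 := by omega
  obtain ⟨k₀, hk₀⟩ : ∃ k₀ : ℕ, (k₀ : ℤ) = m % N :=
    ⟨(m % N).toNat, Int.toNat_of_nonneg (Int.emod_nonneg _ hNz)⟩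
  have hk₀N : k₀ < N := by
    have := Int.emod_lt_of_pos m (by omega : 0 < (N : ℤ))
    omega
  have hm : m = (k₀ : ℤ) + N * (m / N) := by rw [hk₀]; exact (Int.emod_add_mul_ediv m N).symm
  have hfm : f m = f k₀ := by
    have hp : ∀ (q : ℕ) (k : ℤ), f (k + q * N) = f k := fun q => by
      induction q with
      | zero => simp
      | succ q ih => intro k; push_cast; rw [show k + (q + 1) * (N : ℤ) = k + q * N + N by ring, hf, ih]
    rcases Int.eq_nat_or_neg (m / N) with ⟨q, h | h⟩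
    · rw [hm, h, mul_comm, hp]
    · rw [← hp q m, hm, h]
      ring_nf
  have hbr : ∀ k ∈ Finset.range N,
      s (k + 1) + s (k - 1) - 2 * cos θ * s k = if k = k₀ then 2 * sin θ else 0 := by
    intro k hk
    rw [Finset.mem_range] at hk
    -- the offset in `[0, N)`
    obtain ⟨r, q, hr, hrN, hrq⟩ : ∃ r q : ℤ, 0 ≤ r ∧ r < N ∧ m - k = r + N * q :=
      ⟨(m - k) % N, (m - k) / N, Int.emod_nonneg _ hNz, Int.emod_lt_of_pos _ (by omega),
        (Int.emod_add_mul_ediv _ _).symm⟩
    have hval : ∀ e : ℤ, s ((k : ℤ) + e) = |sin (((r : ℝ) - e) * θ)| := fun e => by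
      have hc : (m : ℝ) - k = r + N * q := by exact_mod_cast hrq
      simp only [hsdef]
      rw [show (((m : ℝ) - (((k : ℤ) + e : ℤ) : ℝ)) * θ) = ((r : ℝ) - e) * θ + (q : ℝ) * π by
        push_cast; rw [← hθN]; linear_combination θ * hc, abs_sin_add_int_mul_pi]
    have v1 := hval 1
    have v2 := hval (-1)
    have v0 := hval 0
    push_cast at v1 v2 v0
    rw [sub_eq_add_neg ((k : ℤ)) 1]
    rw [add_zero, sub_zero] at v0
    rw [sub_neg_eq_add] at v2
    rw [v1, v2, v0]
    rcases eq_or_ne r 0 with h | h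
    · have hkk : k = k₀ := by
        have h1 : (k : ℤ) - k₀ = N * (m / N - q) := by
          have := hm; subst h; linear_combination this - hrq
        have h2 : m / (N : ℤ) - q = 0 := by
          by_contra hne
          rcases lt_or_gt_of_ne hne with hl | hl <;> nlinarith
        rw [h2, mul_zero] at h1
        omega
      subst h
      have hsin : 0 ≤ sin θ := sin_nonneg_of_nonneg_of_le_pi hθ0 (by
        rw [← hθN]; exact le_mul_of_one_le_left hθ0 (by exact_mod_cast (by omega : 1 ≤ N)))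
      simp [hkk, abs_of_nonneg hsin, neg_mul]
      ring
    · have hkk : k ≠ k₀ := fun hkk => h (by
        subst hkk
        have h1 : r = N * (m / N - q) := by linear_combination hm - hrq
        have h2 : m / (N : ℤ) - q = 0 := by
          by_contra hne
          rcases lt_or_gt_of_ne hne with hl | hl <;> nlinarith
        rw [h1, h2, mul_zero])
      rw [if_neg hkk]
      have hr1 : (1 : ℝ) ≤ r := by exact_mod_cast (by omega : 1 ≤ r)
      have hr2 : (r : ℝ) + 1 ≤ N := by exact_mod_cast (by omega : r + 1 ≤ N)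
      have hnn : ∀ x : ℝ, 0 ≤ x → x ≤ N → |sin (x * θ)| = sin (x * θ) := fun x h0 h1 =>
        abs_of_nonneg (sin_nonneg_of_nonneg_of_le_pi (mul_nonneg h0 hθ0)
          (by rw [← hθN]; exact mul_le_mul_of_nonneg_right h1 hθ0))
      rw [hnn _ (by linarith) (by linarith), hnn _ (by linarith) (by linarith),
        hnn _ (by linarith) (by linarith), sub_mul, add_mul, one_mul, sin_sub, sin_add]
      ring
  calc ∑ k ∈ Finset.range N, (f (k - 1) + f (k + 1) - 2 * cos θ * f k) *
        |sin ((m - k : ℝ) * θ)|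
      = ∑ k ∈ Finset.range N, f ((k : ℤ) - 1) * s k + ∑ k ∈ Finset.range N, f ((k : ℤ) + 1) * s k -
          2 * cos θ * ∑ k ∈ Finset.range N, f k * s k := by
        rw [Finset.mul_sum, ← Finset.sum_add_distrib, ← Finset.sum_sub_distrib]
        refine Finset.sum_congr rfl fun k _ => ?_
        simp only [hsdef, Int.cast_natCast]
        ring
    _ = ∑ k ∈ Finset.range N, f k * (s (k + 1) + s (k - 1) - 2 * cos θ * s k) := by
        rw [e1, e2, Finset.mul_sum, ← Finset.sum_add_distrib, ← Finset.sum_sub_distrib]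
        exact Finset.sum_congr rfl fun k _ => by ring
    _ = ∑ k ∈ Finset.range N, f k * if k = k₀ then 2 * sin θ else 0 :=
        Finset.sum_congr rfl fun k hk => by rw [hbr k hk]
    _ = _ := by
        simp [hk₀N, hfm]
        ring

/-- A zonotope with the same support values at the directions `k π / N`. -/
lemma exists_interp {K : Set (Fin 2 → ℝ)} (hK : IsBody K) {N : ℕ} (hN : 2 ≤ N) :
    ∃ a : Fin N → Fin 2 → ℝ, ∀ m : ℤ,
      supp (zonot a 1) (dir (m * (π / N))) = supp K (dir (m * (π / N))) := by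
  set θ := π / N with hθdef
  have hN0 : (0 : ℝ) < N := by exact_mod_cast (by omega : 0 < N)
  have hθN : (N : ℝ) * θ = π := by rw [hθdef]; field_simp
  have hθ : 0 < θ := by positivity
  have hθ2 : θ ≤ π / 2 := by
    have : (2 : ℝ) * θ ≤ N * θ := mul_le_mul_of_nonneg_right (by exact_mod_cast hN) hθ.le
    linarith
  have hsin : 0 < sin θ := sin_pos_of_pos_of_lt_pi hθ (by linarith [pi_pos])
  have hcos : 0 ≤ cos θ := cos_nonneg_of_mem_Icc ⟨by linarith, hθ2⟩
  set f : ℤ → ℝ := fun k => supp K (dir (k * θ)) with hfdef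
  have hf : ∀ k, f (k + N) = f k := fun k => by
    simp only [hfdef]
    rw [show ((k + (N : ℤ) : ℤ) : ℝ) * θ = k * θ + π by push_cast; rw [← hθN]; ring, dir_add_pi,
      PairAux.supp_neg hK]
  set c : ℤ → ℝ := fun k => (f (k - 1) + f (k + 1) - 2 * cos θ * f k) / (2 * sin θ) with hcdef
  have hc : ∀ k, 0 ≤ c k := fun k => by
    refine div_nonneg (sub_nonneg.2 ?_) (by positivity)
    have h := supp_add_le hK.1 (body_nonempty hK) (dir (k * θ - θ)) (dir (k * θ + θ))
    rw [dir_sub_add_dir_add] at h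
    have h' : 2 * cos θ * f k ≤ supp K ((2 * cos θ) • dir (k * θ)) := by
      rcases hcos.eq_or_lt with h0 | h0
      · rw [← h0, mul_zero, zero_mul, zero_smul, PairAux.supp_zero]
      · have := supp_smul_le hK.1 (body_nonempty hK) (c := (2 * cos θ)⁻¹) (by positivity)
          ((2 * cos θ) • dir (k * θ))
        rw [inv_smul_smul₀ (by positivity)] at this
        rw [hfdef, ← le_inv_mul_iff₀ (by positivity)]
        exact this
    refine h'.trans (h.trans (le_of_eq ?_))
    simp only [hfdef]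
    push_cast
    ring_nf
  refine ⟨fun k => c k • nor ((k : ℕ) * θ), fun m => ?_⟩
  rw [supp_zonot]
  have e : ∀ k : Fin N, |∑ i, dir (m * θ) i * (c k • nor ((k : ℕ) * θ)) i| =
      (f ((k : ℕ) - 1) + f ((k : ℕ) + 1) - 2 * cos θ * f (k : ℕ)) *
        |sin (((m : ℝ) - ((k : ℕ) : ℝ)) * θ)| / (2 * sin θ) := fun k => by
    rw [show ∑ i, dir (m * θ) i * (c k • nor ((k : ℕ) * θ)) i =
        c k * ∑ i, dir (m * θ) i * nor ((k : ℕ) * θ) i by
      rw [Finset.mul_sum]
      exact Finset.sum_congr rfl fun i _ => by simp; ring]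
    rw [dot_nor, abs_mul, abs_of_nonneg (hc _), sub_mul]
    simp only [hcdef]
    ring_nf
  rw [Finset.sum_congr rfl fun k _ => e k, ← Finset.sum_div,
    Fin.sum_univ_eq_sum_range (fun k : ℕ => (f ((k : ℤ) - 1) + f ((k : ℤ) + 1) - 2 * cos θ * f k) *
      |sin (((m : ℝ) - (k : ℝ)) * θ)|) N, sum_second_diff hN f hf m]
  field_simp
  rfl

/-- Every planar symmetric body is a zonoid. -/
theorem isZonoid_planar {K : Set (Fin 2 → ℝ)} (hK : IsBody K) : IsZonoid K := by
  intro ε hε
  have hne := body_nonempty hK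
  obtain ⟨c, hc, hlow⟩ := PairAux.exists_lower (by norm_num) hK
  obtain ⟨B, hB⟩ := hK.1.isBounded.exists_norm_le
  set R := 2 * |B| + 1 with hRdef
  have hR : 0 < R := by positivity
  have hupK : ∀ y, supp K y ≤ R * ‖y‖ := fun y => supp_le hne y fun x hx =>
    (PairAux.dot_le y x).trans (by
      have h1 : ((2 : ℕ) : ℝ) * ‖x‖ ≤ R := by
        push_cast; rw [hRdef]; linarith [hB x hx, le_abs_self B]
      calc ‖y‖ * (((2 : ℕ) : ℝ) * ‖x‖) ≤ ‖y‖ * R :=
            mul_le_mul_of_nonneg_left h1 (norm_nonneg _)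
        _ = R * ‖y‖ := mul_comm _ _)
  set ε₁ := min ε 1
  have hε₁ : 0 < ε₁ := lt_min hε one_pos
  obtain ⟨N, hN2, hNbig⟩ : ∃ N : ℕ, 2 ≤ N ∧ 5 * R * (π / N) ≤ ε₁ * c / 4 := by
    obtain ⟨M, hM⟩ := exists_nat_ge (5 * R * π / (ε₁ * c / 4))
    refine ⟨M + 2, by omega, ?_⟩
    push_cast
    rw [← mul_div_assoc, div_le_iff₀ (by positivity)]
    rw [div_le_iff₀ (by positivity)] at hM
    nlinarith [mul_pos hε₁ hc]
  obtain ⟨a, ha⟩ := exists_interp hK hN2
  set θ := π / N with hθdef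
  have hN0 : (0 : ℝ) < N := by exact_mod_cast (by omega : 0 < N)
  have hθN : (N : ℝ) * θ = π := by rw [hθdef]; field_simp
  have hθ : 0 < θ := by positivity
  have hθ2 : θ ≤ π / 2 := by
    have : (2 : ℝ) * θ ≤ N * θ := mul_le_mul_of_nonneg_right (by exact_mod_cast hN2) hθ.le
    linarith
  have hsin : 0 < sin θ := sin_pos_of_pos_of_lt_pi hθ (by linarith [pi_pos])
  set Z := zonot a 1
  have hZc : IsCompact Z := isCompact_zonot a 1
  have hZne : Z.Nonempty := ⟨_, 0, fun i _ => by simp, rfl⟩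
  have hZneg : ∀ y, supp Z (-y) = supp Z y := fun y => by
    simp only [Z, supp_zonot, Pi.neg_apply, neg_mul, Finset.sum_neg_distrib, abs_neg]
  -- every direction is within `θ` of a sampled one
  have hnear : ∀ φ : ℝ, 0 ≤ φ → ∃ (k : ℤ) (δ : ℝ), 0 ≤ δ ∧ δ ≤ θ ∧ φ = k * θ + δ :=
    fun φ hφ => by
      refine ⟨⌊φ / θ⌋, φ - ⌊φ / θ⌋ * θ, ?_, ?_, by ring⟩
      · have := Int.floor_le (φ / θ)
        rw [le_div_iff₀ hθ] at this
        linarith
      · have := (Int.lt_floor_add_one (φ / θ)).le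
        rw [div_le_iff₀ hθ] at this
        linarith
  have hZdir : ∀ k : ℤ, supp Z (dir (k * θ)) ≤ R := fun k => by
    rw [ha k]
    exact (hupK _).trans ((mul_le_mul_of_nonneg_left (norm_dir_le _) hR.le).trans (mul_one R).le)
  have hupZ : ∀ v, supp Z v ≤ 4 * R * ‖v‖ := fun v => by
    obtain ⟨ρ, φ, hρ, hφ, -, hv⟩ := exists_polar v
    suffices h : supp Z (ρ • dir φ) ≤ 4 * R * ‖ρ • dir φ‖ by
      rcases hv with rfl | rfl
      · exact h
      · rwa [hZneg, norm_neg]
    refine (supp_smul_le hZc hZne hρ _).trans ?_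
    obtain ⟨k, δ, hδ0, hδθ, rfl⟩ := hnear φ hφ
    have h1 : supp Z (dir (k * θ + δ)) ≤ 2 * R := by
      have e : dir (k * θ + δ) = (sin θ)⁻¹ •
          (sin (θ - δ) • dir (k * θ) + sin δ • dir (((k + 1 : ℤ) : ℝ) * θ)) := by
        rw [show ((k + 1 : ℤ) : ℝ) * θ = k * θ + θ by push_cast; ring, ← dir_interp,
          inv_smul_smul₀ hsin.ne']
      have hs1 : 0 ≤ sin (θ - δ) :=
        sin_nonneg_of_nonneg_of_le_pi (by linarith) (by linarith [pi_pos])
      have hs2 : 0 ≤ sin δ := sin_nonneg_of_nonneg_of_le_pi hδ0 (by linarith [pi_pos])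
      rw [e]
      refine (supp_smul_le hZc hZne (inv_nonneg.2 hsin.le) _).trans ?_
      rw [inv_mul_le_iff₀ hsin]
      refine (supp_add_le hZc hZne _ _).trans ?_
      refine (add_le_add (supp_smul_le hZc hZne hs1 _) (supp_smul_le hZc hZne hs2 _)).trans ?_
      have h2 : sin (θ - δ) ≤ θ - δ := sin_le (by linarith)
      have h3 : sin δ ≤ δ := sin_le hδ0
      have h4 : 2 / π * θ ≤ sin θ := mul_le_sin hθ.le hθ2
      have h5 : θ ≤ 2 * sin θ := by
        have : 1 / 2 * θ ≤ 2 / π * θ := mul_le_mul_of_nonneg_right (by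
          rw [div_le_div_iff₀ two_pos pi_pos]; linarith [pi_le_four]) hθ.le
        linarith
      nlinarith [hZdir k, hZdir (k + 1), mul_le_mul_of_nonneg_left (hZdir k) hs1,
        mul_le_mul_of_nonneg_left (hZdir (k + 1)) hs2]
    rw [norm_smul, Real.norm_of_nonneg hρ]
    calc ρ * supp Z (dir (k * θ + δ)) ≤ ρ * (2 * R) := mul_le_mul_of_nonneg_left h1 hρ
      _ ≤ 4 * R * (ρ * ‖dir (k * θ + δ)‖) := by
          nlinarith [mul_le_mul_of_nonneg_left (half_le_norm_dir (k * θ + δ))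
            (mul_nonneg hρ hR.le)]
  -- the two support functions are within the factor `1 + ε`
  have hclose : ∀ y, supp Z y ≤ (1 + ε) * supp K y ∧ supp K y ≤ (1 + ε) * supp Z y := by
    intro y
    obtain ⟨ρ, φ, hρ, hφ, -, hy⟩ := exists_polar y
    suffices h : supp Z (ρ • dir φ) ≤ (1 + ε) * supp K (ρ • dir φ) ∧
        supp K (ρ • dir φ) ≤ (1 + ε) * supp Z (ρ • dir φ) by
      rcases hy with rfl | rfl
      · exact h
      · rwa [hZneg, PairAux.supp_neg hK]
    rcases hρ.eq_or_lt with rfl | hρ'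
    · simp [PairAux.supp_zero]
    have hs : ∀ (A : Set (Fin 2 → ℝ)), IsCompact A → A.Nonempty →
        supp A (ρ • dir φ) = ρ * supp A (dir φ) := fun A hA hAn =>
      le_antisymm (supp_smul_le hA hAn hρ _) (by
        have := supp_smul_le hA hAn (c := ρ⁻¹) (by positivity) (ρ • dir φ)
        rw [inv_smul_smul₀ hρ'.ne', le_inv_mul_iff₀ hρ'] at this
        exact this)
    obtain ⟨k, δ, hδ0, hδθ, rfl⟩ := hnear φ hφ
    set u := dir (k * θ + δ) with hu
    set w := dir (k * θ) with hw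
    have hd : ‖u - w‖ ≤ θ := (norm_dir_sub_le _ _).trans (by simp [abs_of_nonneg hδ0, hδθ])
    have hd' : ‖w - u‖ ≤ θ := by rwa [norm_sub_rev]
    have hZw : supp Z w = supp K w := ha k
    have q1 := supp_add_le hZc hZne w (u - w)
    have q2 := supp_add_le hK.1 hne u (w - u)
    have q3 := supp_add_le hK.1 hne w (u - w)
    have q4 := supp_add_le hZc hZne u (w - u)
    simp only [add_sub_cancel] at q1 q2 q3 q4
    have r1 := (hupZ (u - w)).trans (mul_le_mul_of_nonneg_left hd (by positivity))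
    have r2 := (hupK (w - u)).trans (mul_le_mul_of_nonneg_left hd' hR.le)
    have r3 := (hupK (u - w)).trans (mul_le_mul_of_nonneg_left hd hR.le)
    have r4 := (hupZ (w - u)).trans (mul_le_mul_of_nonneg_left hd' (by positivity))
    have hlow' : c / 2 ≤ supp K u := (by
      nlinarith [half_le_norm_dir (k * θ + δ)] : c / 2 ≤ c * ‖u‖).trans (hlow u)
    rw [hs Z hZc hZne, hs K hK.1 hne]
    have hε1 : ε₁ ≤ ε := min_le_left _ _
    have hε2 : ε₁ ≤ 1 := min_le_right _ _
    constructor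
    · calc ρ * supp Z u ≤ ρ * ((1 + ε) * supp K u) :=
            mul_le_mul_of_nonneg_left (by nlinarith) hρ
        _ = _ := by ring
    · calc ρ * supp K u ≤ ρ * ((1 + ε) * supp Z u) := by
            refine mul_le_mul_of_nonneg_left ?_ hρ
            have hZl : c / 4 ≤ supp Z u := by nlinarith
            nlinarith
        _ = _ := by ring
  refine ⟨N, a, fun x hx => mem_of_le_supp hK.1 hK.2.1 hne fun y => ?_,
    fun x hx => mem_of_le_supp hZc (convex_zonot a 1) hZne fun y => ?_⟩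
  · rw [sum_mul_smul, inv_mul_le_iff₀ (by linarith)]
    exact (le_supp hZc y hx).trans (hclose y).1
  · rw [sum_mul_smul, inv_mul_le_iff₀ (by linarith)]
    exact (le_supp hK.1 y hx).trans (hclose y).2

/-- The inequality for planar symmetric bodies. -/
theorem planar {K L : Set (Fin 2 → ℝ)} {t : ℝ} (hK : IsBody K) (hL : IsBody L) (ht0 : 0 ≤ t)
    (ht1 : t ≤ 1) : vol K ^ (1 - t) * vol L ^ t ≤ vol (logComb K L t) :=
  conePair gaugeFacts (coneLimit gaugeFacts fun d => zonot_coneLogMinkowski (d + 1)) 2 K L t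
    (by norm_num) hK hL ht0 ht1 (isZonoid_planar (isBody_logComb (by norm_num) hK hL ht0 ht1))

end Vale.Agent.P227.Mirror
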