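import Vale.Agent.P227.Mirror.Planar
import Vale.Agent.P245.PL

/-!
P227, pairs with common reflections: the slices orthogonal to the axis of a reflection and the
step from dimension `n` to `n + 1`.
-/

noncomputable section

namespace Vale.Agent.P227.Mirror

open MeasureTheory Set
open Vale.Agent.P227.Zono Vale.Agent.P227.Zono.ConeAux
open scoped ENNReal

variable {n : ℕ}

/-- The sign change of coordinate `i`. -/
def coordFlip {d : ℕ} (i : Fin d) (x : Fin d → ℝ) : Fin d → ℝ := Function.update x i (-x i)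

/-- The slice at height `z` in coordinate `0`. -/
def slice (K : Set (Fin (n + 1) → ℝ)) (z : ℝ) : Set (Fin n → ℝ) := {x | Fin.cons z x ∈ K}

/-- Two-term Hölder: the weighted geometric mean is superadditive. -/
lemma geom_add {a b c d t : ℝ} (ha : 0 ≤ a) (hb : 0 ≤ b) (hc : 0 ≤ c) (hd : 0 ≤ d) (h0 : 0 < t)
    (h1 : t < 1) :
    a ^ (1 - t) * b ^ t + c ^ (1 - t) * d ^ t ≤ (a + c) ^ (1 - t) * (b + d) ^ t := by
  have h1' : 0 < 1 - t := by linarith
  rcases (add_nonneg ha hc).eq_or_lt with h | hac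
  · rw [(add_eq_zero_iff_of_nonneg ha hc).1 h.symm |>.1,
      (add_eq_zero_iff_of_nonneg ha hc).1 h.symm |>.2]
    simp [Real.zero_rpow h1'.ne']
  rcases (add_nonneg hb hd).eq_or_lt with h | hbd
  · rw [(add_eq_zero_iff_of_nonneg hb hd).1 h.symm |>.1,
      (add_eq_zero_iff_of_nonneg hb hd).1 h.symm |>.2]
    simp [Real.zero_rpow h0.ne']
  have key : ∀ x y : ℝ, 0 ≤ x → 0 ≤ y → x ^ (1 - t) * y ^ t ≤
      ((a + c) ^ (1 - t) * (b + d) ^ t) * ((1 - t) * (x / (a + c)) + t * (y / (b + d))) := by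
    intro x y hx hy
    have h2 := Real.geom_mean_le_arith_mean2_weighted h1'.le h0.le (div_nonneg hx hac.le)
      (div_nonneg hy hbd.le) (by ring)
    rw [Real.div_rpow hx hac.le, Real.div_rpow hy hbd.le, div_mul_div_comm,
      div_le_iff₀ (by positivity)] at h2
    linarith
  refine (add_le_add (key a b ha hb) (key c d hc hd)).trans (le_of_eq ?_)
  field_simp
  ring

lemma continuous_cons (z : ℝ) : Continuous fun x : Fin n → ℝ => (Fin.cons z x : Fin (n + 1) → ℝ) :=
  continuous_const.finCons continuous_id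

lemma isClosed_slice {K : Set (Fin (n + 1) → ℝ)} (hK : IsCompact K) (z : ℝ) :
    IsClosed (slice K z) :=
  hK.isClosed.preimage (continuous_cons z)

lemma isCompact_slice {K : Set (Fin (n + 1) → ℝ)} (hK : IsCompact K) (z : ℝ) :
    IsCompact (slice K z) := by
  refine (hK.image (f := fun p : Fin (n + 1) → ℝ => Fin.tail p) (by fun_prop)).of_isClosed_subset
    (isClosed_slice hK z) fun x hx => ⟨_, hx, Fin.tail_cons _ _⟩

lemma coordFlip_zero_cons (z : ℝ) (x : Fin n → ℝ) :
    coordFlip 0 (Fin.cons z x : Fin (n + 1) → ℝ) = Fin.cons (-z) x := by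
  simp [coordFlip, Fin.update_cons_zero]

lemma coordFlip_succ_cons (i : Fin n) (z : ℝ) (x : Fin n → ℝ) :
    coordFlip i.succ (Fin.cons z x : Fin (n + 1) → ℝ) = Fin.cons z (coordFlip i x) := by
  simp [coordFlip, Fin.cons_update]

lemma slice_coordFlip {K : Set (Fin (n + 1) → ℝ)} (i : Fin n) (h : ∀ x ∈ K, coordFlip i.succ x ∈ K) (z : ℝ)
    {x : Fin n → ℝ} (hx : x ∈ slice K z) : coordFlip i x ∈ slice K z := by
  have := h _ hx
  rwa [coordFlip_succ_cons] at this

lemma slice_neg {K : Set (Fin (n + 1) → ℝ)} (h : ∀ x ∈ K, coordFlip 0 x ∈ K) (z : ℝ) :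
    slice K (-z) = slice K z := by
  ext x
  constructor <;> intro hx <;> have := h _ hx <;>
    simp only [coordFlip_zero_cons, neg_neg] at this <;> exact this

lemma isBody_slice {K : Set (Fin (n + 1) → ℝ)} (hK : IsBody K) (h : ∀ x ∈ K, coordFlip 0 x ∈ K) {z : ℝ}
    (hv : volume (slice K z) ≠ 0) : IsBody (slice K z) := by
  refine ⟨isCompact_slice hK.1 z, fun x hx y hy a b ha hb hab => ?_, fun x hx => ?_,
    ENNReal.toReal_pos hv (isCompact_slice hK.1 z).measure_lt_top.ne⟩
  · have h2 := hK.2.1 hx hy ha hb hab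
    show Fin.cons z (a • x + b • y) ∈ K
    convert h2 using 1
    funext i
    refine Fin.cases ?_ (fun j => ?_) i
    · simp [← add_mul, hab]
    · simp
  · have h2 := h _ (hK.2.2.1 _ hx)
    have e : (-(Fin.cons z x) : Fin (n + 1) → ℝ) = Fin.cons (-z) (-x) := by
      funext i; refine Fin.cases ?_ (fun j => ?_) i <;> simp
    rw [e, coordFlip_zero_cons, neg_neg] at h2
    exact h2

/-- The slice of the combination at the geometric mean of two heights contains the combination of
the slices. -/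
lemma logComb_slice_subset {K L : Set (Fin (n + 1) → ℝ)} (hK : IsBody K) (hL : IsBody L)
    (hKf : ∀ x ∈ K, coordFlip 0 x ∈ K) (hLf : ∀ x ∈ L, coordFlip 0 x ∈ L) {t z₀ z₁ : ℝ} (h0 : 0 < t)
    (h1 : t < 1) (hz₀ : 0 < z₀) (hz₁ : 0 < z₁) (hA : IsBody (slice K z₀))
    (hB : IsBody (slice L z₁)) :
    logComb (slice K z₀) (slice L z₁) t ⊆ slice (logComb K L t) (z₀ ^ (1 - t) * z₁ ^ t) := by
  intro x hx
  show Fin.cons (z₀ ^ (1 - t) * z₁ ^ t) x ∈ logComb K L t
  intro y
  set v : Fin n → ℝ := fun i => y i.succ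
  have hle : ∀ (M : Set (Fin (n + 1) → ℝ)), IsBody M → (∀ p ∈ M, coordFlip 0 p ∈ M) → ∀ z : ℝ, 0 ≤ z →
      IsBody (slice M z) → |y 0| * z + supp (slice M z) v ≤ supp M y := by
    intro M hM hMf z hz hS
    rw [← le_sub_iff_add_le']
    refine supp_le (body_nonempty hS) v fun p hp => ?_
    rw [le_sub_iff_add_le']
    rcases le_or_gt 0 (y 0) with hy | hy
    · have h2 := le_supp hM.1 y (x := Fin.cons z p) hp
      rw [Fin.sum_univ_succ] at h2
      simp only [Fin.cons_zero, Fin.cons_succ] at h2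
      rwa [abs_of_nonneg hy]
    · have h2 := hMf _ hp
      rw [coordFlip_zero_cons] at h2
      have h3 := le_supp hM.1 y h2
      rw [Fin.sum_univ_succ] at h3
      simp only [Fin.cons_zero, Fin.cons_succ] at h3
      rw [abs_of_neg hy]
      linarith
  have hnn : ∀ {M : Set (Fin n → ℝ)}, IsBody M → 0 ≤ supp M v := fun {M} hM => by
    obtain ⟨p, hp⟩ := body_nonempty hM
    have h2 := le_supp hM.1 v hp
    have h3 := le_supp hM.1 v (hM.2.2.1 p hp)
    simp only [Pi.neg_apply, mul_neg, Finset.sum_neg_distrib] at h3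
    linarith
  have hsA := hnn hA
  have hsB := hnn hB
  rw [Fin.sum_univ_succ]
  simp only [Fin.cons_zero, Fin.cons_succ]
  calc y 0 * (z₀ ^ (1 - t) * z₁ ^ t) + ∑ i, v i * x i
      ≤ |y 0| * (z₀ ^ (1 - t) * z₁ ^ t) +
          supp (slice K z₀) v ^ (1 - t) * supp (slice L z₁) v ^ t :=
        add_le_add (mul_le_mul_of_nonneg_right (le_abs_self _)
          (mul_nonneg (Real.rpow_nonneg hz₀.le _) (Real.rpow_nonneg hz₁.le _))) (hx v)
    _ = (|y 0| * z₀) ^ (1 - t) * (|y 0| * z₁) ^ t +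
          supp (slice K z₀) v ^ (1 - t) * supp (slice L z₁) v ^ t := by
        rw [Real.mul_rpow (abs_nonneg _) hz₀.le, Real.mul_rpow (abs_nonneg _) hz₁.le,
          mul_mul_mul_comm, ← Real.rpow_add' (abs_nonneg _) (by norm_num)]
        simp
    _ ≤ (|y 0| * z₀ + supp (slice K z₀) v) ^ (1 - t) *
          (|y 0| * z₁ + supp (slice L z₁) v) ^ t :=
        geom_add (by positivity) (by positivity) hsA hsB h0 h1
    _ ≤ supp K y ^ (1 - t) * supp L y ^ t :=
        mul_le_mul (Real.rpow_le_rpow (by positivity) (hle K hK hKf z₀ hz₀.le hA) (by linarith))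
          (Real.rpow_le_rpow (by positivity) (hle L hL hLf z₁ hz₁.le hB) h0.le)
          (Real.rpow_nonneg (by positivity) _)
          (Real.rpow_nonneg ((by positivity : (0:ℝ) ≤ |y 0| * z₀ + supp (slice K z₀) v).trans
            (hle K hK hKf z₀ hz₀.le hA)) _)

lemma measurableSet_split (K : Set (Fin (n + 1) → ℝ)) (hK : MeasurableSet K) :
    MeasurableSet {p : ℝ × (Fin n → ℝ) | Fin.cons p.1 p.2 ∈ K} :=
  hK.preimage (continuous_fst.finCons continuous_snd).measurable

lemma measurable_slice_volume {K : Set (Fin (n + 1) → ℝ)} (hK : MeasurableSet K) :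
    Measurable fun z => volume (slice K z) :=
  measurable_measure_prodMk_left (measurableSet_split K hK)

lemma volume_eq_lintegral {K : Set (Fin (n + 1) → ℝ)} (hK : MeasurableSet K) :
    volume K = ∫⁻ z, volume (slice K z) := by
  let e := MeasurableEquiv.piFinSuccAbove (fun _ : Fin (n + 1) => ℝ) 0
  have he : MeasurePreserving e volume volume :=
    volume_preserving_piFinSuccAbove (fun _ : Fin (n + 1) => ℝ) 0
  have h1 : e.symm ⁻¹' K = {p : ℝ × (Fin n → ℝ) | Fin.cons p.1 p.2 ∈ K} := by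
    ext p
    simp [e, Fin.consEquiv]
  rw [← (he.symm e).measure_preimage hK.nullMeasurableSet, h1, Measure.volume_eq_prod,
    Measure.prod_apply (measurableSet_split K hK)]
  rfl

lemma lintegral_even {g : ℝ → ℝ≥0∞} (he : ∀ z, g (-z) = g z) :
    ∫⁻ z, g z = 2 * ∫⁻ s, ENNReal.ofReal (Real.exp s) * g (Real.exp s) := by
  have h1 : ∫⁻ s, ENNReal.ofReal (Real.exp s) * g (Real.exp s) = ∫⁻ z in Ioi (0 : ℝ), g z := by
    rw [← Real.range_exp, ← image_univ,
      lintegral_image_eq_lintegral_abs_deriv_mul MeasurableSet.univ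
        (fun x _ => (Real.hasDerivAt_exp x).hasDerivWithinAt) Real.exp_injective.injOn g,
      Measure.restrict_univ]
    exact lintegral_congr fun s => by rw [abs_of_pos (Real.exp_pos s)]
  have h2 : ∫⁻ z in Iio (0 : ℝ), g z = ∫⁻ z in Ioi (0 : ℝ), g z := by
    have h := (Measure.measurePreserving_neg (volume : Measure ℝ)).setLIntegral_comp_preimage_emb
      (MeasurableEquiv.neg ℝ).measurableEmbedding g (Ioi 0)
    simpa [he] using h
  rw [h1, ← lintegral_add_compl g measurableSet_Iio, h2,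
    show (Iio (0 : ℝ))ᶜ = Ici 0 from compl_Iio, setLIntegral_congr Ioi_ae_eq_Ici.symm, two_mul]

/-- The step: the inequality for the slices gives it for the bodies. -/
theorem step {K L : Set (Fin (n + 1) → ℝ)} {t : ℝ} (hK : IsBody K) (hL : IsBody L)
    (hKf : ∀ x ∈ K, coordFlip 0 x ∈ K) (hLf : ∀ x ∈ L, coordFlip 0 x ∈ L) (h0 : 0 < t) (h1 : t < 1)
    (ih : ∀ z₀ z₁ : ℝ, IsBody (slice K z₀) → IsBody (slice L z₁) →
      vol (slice K z₀) ^ (1 - t) * vol (slice L z₁) ^ t ≤
        vol (logComb (slice K z₀) (slice L z₁) t)) :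
    vol K ^ (1 - t) * vol L ^ t ≤ vol (logComb K L t) := by
  set W := logComb K L t
  have hW := isBody_logComb (Nat.succ_pos n) hK hL h0.le h1.le
  have hWf : ∀ x ∈ W, coordFlip 0 x ∈ W := by
    intro x hx y
    have hsup : ∀ M : Set (Fin (n + 1) → ℝ), IsCompact M → M.Nonempty →
        (∀ p ∈ M, coordFlip 0 p ∈ M) → supp M (coordFlip 0 y) ≤ supp M y := fun M hM hne hMf =>
      supp_le hne _ fun p hp => by
        refine le_trans (le_of_eq ?_) (le_supp hM y (hMf p hp))
        simp [coordFlip, Fin.sum_univ_succ]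
    have heq : ∀ M : Set (Fin (n + 1) → ℝ), IsBody M → (∀ p ∈ M, coordFlip 0 p ∈ M) →
        supp M (coordFlip 0 y) = supp M y := fun M hM hMf => by
      refine le_antisymm (hsup M hM.1 (body_nonempty hM) hMf) ?_
      refine supp_le (body_nonempty hM) y fun p hp => ?_
      refine le_trans (le_of_eq ?_) (le_supp hM.1 (coordFlip 0 y) (hMf p hp))
      simp [coordFlip, Fin.sum_univ_succ]
    have h := hx (coordFlip 0 y)
    rw [heq K hK hKf, heq L hL hLf] at h
    refine le_trans (le_of_eq ?_) h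
    simp [coordFlip, Fin.sum_univ_succ]
  set a : ℝ → ℝ≥0∞ := fun z => volume (slice K z)
  set b : ℝ → ℝ≥0∞ := fun z => volume (slice L z)
  set c : ℝ → ℝ≥0∞ := fun z => volume (slice W z)
  set E : ℝ → ℝ≥0∞ := fun s => ENNReal.ofReal (Real.exp s)
  have hE : Measurable E := Real.measurable_exp.ennreal_ofReal
  have h1' : 0 < 1 - t := by linarith
  have key : ∀ x y : ℝ, (E x * a (Real.exp x)) ^ (1 - t) * (E y * b (Real.exp y)) ^ t ≤
      E ((1 - t) * x + t * y) * c (Real.exp ((1 - t) * x + t * y)) := by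
    intro x y
    have hexp : Real.exp ((1 - t) * x + t * y) = Real.exp x ^ (1 - t) * Real.exp y ^ t := by
      rw [← Real.exp_mul, ← Real.exp_mul, ← Real.exp_add]; ring_nf
    rw [ENNReal.mul_rpow_of_nonneg _ _ h1'.le, ENNReal.mul_rpow_of_nonneg _ _ h0.le,
      mul_mul_mul_comm]
    refine mul_le_mul' (le_of_eq ?_) ?_
    · simp only [E]
      rw [ENNReal.ofReal_rpow_of_nonneg (Real.exp_pos x).le h1'.le,
        ENNReal.ofReal_rpow_of_nonneg (Real.exp_pos y).le h0.le,
        ← ENNReal.ofReal_mul (Real.rpow_nonneg (Real.exp_pos x).le _), hexp]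
    rcases eq_or_ne (a (Real.exp x)) 0 with ha | ha
    · simp [ha, ENNReal.zero_rpow_of_pos h1']
    rcases eq_or_ne (b (Real.exp y)) 0 with hb | hb
    · simp [hb, ENNReal.zero_rpow_of_pos h0]
    have hA := isBody_slice hK hKf ha
    have hB := isBody_slice hL hLf hb
    have hsub := logComb_slice_subset hK hL hKf hLf h0 h1 (Real.exp_pos x) (Real.exp_pos y) hA hB
    rw [← hexp] at hsub
    have hfin : c (Real.exp ((1 - t) * x + t * y)) ≠ ∞ :=
      (isCompact_slice hW.1 _).measure_lt_top.ne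
    have h2 := (ih _ _ hA hB).trans (ENNReal.toReal_mono hfin (measure_mono hsub))
    simp only [vol, ENNReal.toReal_rpow, ← ENNReal.toReal_mul] at h2
    exact (ENNReal.toReal_le_toReal (ENNReal.mul_ne_top
      (ENNReal.rpow_ne_top_of_nonneg h1'.le hA.1.measure_lt_top.ne)
      (ENNReal.rpow_ne_top_of_nonneg h0.le hB.1.measure_lt_top.ne)) hfin).1 h2
  have hm : ∀ M : Set (Fin (n + 1) → ℝ), IsCompact M →
      Measurable fun s => E s * volume (slice M (Real.exp s)) := fun M hM =>
    hE.mul ((measurable_slice_volume hM.isClosed.measurableSet).comp Real.measurable_exp)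
  have hpl := Vale.Agent.P245.pl_line h0 h1 (hm K hK.1) (hm L hL.1) (hm W hW.1) key
  have hvol : ∀ M : Set (Fin (n + 1) → ℝ), IsCompact M → (∀ p ∈ M, coordFlip 0 p ∈ M) →
      volume M = 2 * ∫⁻ s, E s * volume (slice M (Real.exp s)) := fun M hM hMf => by
    rw [volume_eq_lintegral hM.isClosed.measurableSet]
    exact lintegral_even fun z => by rw [slice_neg hMf]
  have hfinal : volume K ^ (1 - t) * volume L ^ t ≤ volume W := by
    rw [hvol K hK.1 hKf, hvol L hL.1 hLf, hvol W hW.1 hWf, ENNReal.mul_rpow_of_nonneg _ _ h1'.le,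
      ENNReal.mul_rpow_of_nonneg _ _ h0.le, mul_mul_mul_comm,
      ← ENNReal.rpow_add_of_nonneg _ _ h1'.le h0.le, sub_add_cancel, ENNReal.rpow_one]
    exact mul_le_mul' le_rfl hpl
  have h3 := ENNReal.toReal_mono hW.1.measure_lt_top.ne hfinal
  rwa [ENNReal.toReal_mul, ← ENNReal.toReal_rpow, ← ENNReal.toReal_rpow] at h3

end Vale.Agent.P227.Mirror
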