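import Vale.Agent.P227.Mirror.Main

/-!
P227, local form at smooth bodies with mirrors: gradient, Hessian and homogeneity of positively
homogeneous functions on three-space, and smooth support functions.
-/

noncomputable section

namespace Vale.Agent.P227.Mirror

open Set Filter
open scoped Topology ContDiff

/-- Three-space. -/
abbrev V3 := Fin 3 → ℝ

/-- The partial derivatives. -/
def grad (F : V3 → ℝ) (y : V3) : V3 := fun i => fderiv ℝ F y (Pi.single i 1)

/-- The matrix of second partial derivatives. -/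
def hess (F : V3 → ℝ) (y : V3) : Matrix (Fin 3) (Fin 3) ℝ :=
  fun i k => grad (fun z => grad F z i) y k

/-- Half the square. -/
def halfSq (h : V3 → ℝ) (y : V3) : ℝ := h y ^ 2 / 2

/-- A support function of class `C²` with positive curvature: even, positively homogeneous of
degree one, positive, with positive definite Hessian of its square away from the origin. -/
structure SmoothNorm (h : V3 → ℝ) : Prop where
  smooth : ContDiffOn ℝ 2 h {0}ᶜ
  homog : ∀ (c : ℝ) (y : V3), 0 ≤ c → h (c • y) = c * h y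
  even : ∀ y, h (-y) = h y
  pos : ∀ y, y ≠ 0 → 0 < h y
  curved : ∀ y, y ≠ 0 → ∀ v : V3, v ≠ 0 → 0 < ∑ i, ∑ k, v i * hess (halfSq h) y i k * v k

/-- An even perturbation of class `C²` on the sphere, extended with degree zero. -/
structure EvenPert (g : V3 → ℝ) : Prop where
  smooth : ContDiffOn ℝ 2 g {0}ᶜ
  homog : ∀ (c : ℝ) (y : V3), 0 < c → g (c • y) = g y
  even : ∀ y, g (-y) = g y

lemma isOpen_ne_zero : IsOpen ({0}ᶜ : Set V3) := isOpen_compl_singleton

lemma fderiv_eq_dot (F : V3 → ℝ) (y v : V3) : fderiv ℝ F y v = ∑ i, grad F y i * v i := by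
  conv_lhs => rw [pi_eq_sum_univ' v, map_sum]
  exact Finset.sum_congr rfl fun i _ => by rw [map_smul, smul_eq_mul, mul_comm]; rfl

lemma ContDiffOn.grad_apply {F : V3 → ℝ} {U : Set V3} (hF : ContDiffOn ℝ 2 F U) (hU : IsOpen U)
    (i : Fin 3) : ContDiffOn ℝ 1 (fun z => grad F z i) U :=
  (hF.fderiv_of_isOpen hU (by norm_num)).clm_apply contDiffOn_const

lemma continuousOn_grad {F : V3 → ℝ} {U : Set V3} (hF : ContDiffOn ℝ 2 F U) (hU : IsOpen U) :
    ContinuousOn (grad F) U :=
  continuousOn_pi.2 fun i => (ContDiffOn.grad_apply hF hU i).continuousOn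

lemma continuousOn_hess {F : V3 → ℝ} {U : Set V3} (hF : ContDiffOn ℝ 2 F U) (hU : IsOpen U) :
    ContinuousOn (hess F) U :=
  continuousOn_pi.2 fun i => continuousOn_pi.2 fun _ =>
    ((ContDiffOn.grad_apply hF hU i).continuousOn_fderiv_of_isOpen hU le_rfl).clm_apply
      continuousOn_const

lemma grad_congr {F G : V3 → ℝ} {y : V3} (h : F =ᶠ[𝓝 y] G) : grad F y = grad G y :=
  funext fun i => by simp only [grad, h.fderiv_eq]

/-- Gradients of homogeneous functions. -/
lemma grad_scale {F : V3 → ℝ} {c a : ℝ} (hc : c ≠ 0) {y : V3} (hy : y ≠ 0)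
    (hd : DifferentiableOn ℝ F {0}ᶜ) (h : ∀ z, z ≠ 0 → F (c • z) = a * F z) :
    grad F (c • y) = (a / c) • grad F y := by
  have hcy : c • y ≠ 0 := smul_ne_zero hc hy
  have h1 : HasFDerivAt F (fderiv ℝ F (c • y)) (c • y) :=
    ((hd _ hcy).differentiableAt (isOpen_ne_zero.mem_nhds hcy)).hasFDerivAt
  have h2 : HasFDerivAt F (fderiv ℝ F y) y :=
    ((hd _ hy).differentiableAt (isOpen_ne_zero.mem_nhds hy)).hasFDerivAt
  have h3 := h1.comp y ((hasFDerivAt_id (𝕜 := ℝ) y).const_smul c)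
  have h4 : HasFDerivAt (F ∘ (c • id)) (a • fderiv ℝ F y) y :=
    (h2.const_mul a).congr_of_eventuallyEq <| by
      filter_upwards [isOpen_ne_zero.mem_nhds hy] with z hz
      exact h z hz
  have e := h3.unique h4
  funext i
  have e' := congrArg (fun L : V3 →L[ℝ] ℝ => L (Pi.single i 1)) e
  simp only [ContinuousLinearMap.comp_apply, ContinuousLinearMap.smul_apply,
    ContinuousLinearMap.id_apply, map_smul, smul_eq_mul] at e'
  simp only [grad, Pi.smul_apply, smul_eq_mul, div_mul_eq_mul_div]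
  rw [eq_div_iff hc, mul_comm]
  exact e'

lemma hess_scale {F : V3 → ℝ} {c a : ℝ} (hc : c ≠ 0) {y : V3} (hy : y ≠ 0)
    (hd : ContDiffOn ℝ 2 F {0}ᶜ) (h : ∀ z, z ≠ 0 → F (c • z) = a * F z) :
    hess F (c • y) = (a / c / c) • hess F y := by
  funext i k
  have hg : grad (fun z => grad F z i) (c • y) = (a / c / c) • grad (fun z => grad F z i) y :=
    grad_scale hc hy ((ContDiffOn.grad_apply hd isOpen_ne_zero i).differentiableOn one_ne_zero)
      fun z hz => by rw [grad_scale hc hz (hd.differentiableOn (by norm_num)) h]; rfl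
  exact congrFun hg k

/-- The Hessian is symmetric. -/
lemma hess_symm {F : V3 → ℝ} {y : V3} (hF : ContDiffOn ℝ 2 F {0}ᶜ) (hy : y ≠ 0) (i k : Fin 3) :
    hess F y i k = hess F y k i := by
  have hA : ContDiffAt ℝ 2 F y := hF.contDiffAt (isOpen_ne_zero.mem_nhds hy)
  have hd : DifferentiableAt ℝ (fderiv ℝ F) y :=
    (hA.fderiv_right (m := 1) (by norm_num)).differentiableAt one_ne_zero
  have he : ∀ i k : Fin 3, hess F y i k =
      fderiv ℝ (fderiv ℝ F) y (Pi.single k 1) (Pi.single i 1) := fun i k => by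
    simp only [hess, grad]
    rw [fderiv_clm_apply hd (differentiableAt_const _)]
    simp
  rw [he, he]
  exact (hA.isSymmSndFDerivAt (by simp)).eq _ _

/-- The direction of a point. -/
def sdir (y : V3) : V3 := ‖y‖⁻¹ • y

lemma sdir_mem {y : V3} (hy : y ≠ 0) : sdir y ∈ Metric.sphere (0 : V3) 1 := by
  simp [sdir, norm_smul, norm_ne_zero_iff.2 hy]

lemma sphere_subset : Metric.sphere (0 : V3) 1 ⊆ {0}ᶜ := fun y hy h => by simp_all

lemma continuousOn_sdir : ContinuousOn sdir ({0}ᶜ : Set V3) :=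
  (continuous_norm.continuousOn.inv₀ fun y hy => norm_ne_zero_iff.2 hy).smul continuousOn_id

namespace SmoothNorm

variable {h : V3 → ℝ} (H : SmoothNorm h)
include H

lemma zero : h 0 = 0 := by simpa using H.homog 0 0 le_rfl

lemma nonneg (y : V3) : 0 ≤ h y := by
  rcases eq_or_ne y 0 with rfl | hy
  · exact H.zero.ge
  · exact (H.pos y hy).le

lemma halfSq_smooth : ContDiffOn ℝ 2 (halfSq h) {0}ᶜ := (H.smooth.pow 2).div_const 2

lemma halfSq_scale {c : ℝ} (hc : 0 ≤ c) (y : V3) : halfSq h (c • y) = c ^ 2 * halfSq h y := by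
  simp only [halfSq, H.homog c y hc]
  ring

lemma eq_norm_mul {y : V3} (hy : y ≠ 0) : h y = ‖y‖ * h (sdir y) := by
  rw [sdir, H.homog _ _ (by positivity), mul_inv_cancel_left₀ (norm_ne_zero_iff.2 hy)]

lemma exists_bounds : ∃ c C : ℝ, 0 < c ∧ 0 < C ∧ ∀ y, c * ‖y‖ ≤ h y ∧ h y ≤ C * ‖y‖ := by
  have hc : ContinuousOn h (Metric.sphere (0 : V3) 1) := H.smooth.continuousOn.mono sphere_subset
  obtain ⟨a, ha, hmin⟩ := (isCompact_sphere (0 : V3) 1).exists_isMinOn
    (NormedSpace.sphere_nonempty.2 zero_le_one) hc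
  obtain ⟨b, hb, hmax⟩ := (isCompact_sphere (0 : V3) 1).exists_isMaxOn
    (NormedSpace.sphere_nonempty.2 zero_le_one) hc
  refine ⟨h a, h b, H.pos a (sphere_subset ha), H.pos b (sphere_subset hb), fun y => ?_⟩
  rcases eq_or_ne y 0 with rfl | hy
  · simp [H.zero]
  · rw [H.eq_norm_mul hy, mul_comm (h a), mul_comm (h b)]
    exact ⟨mul_le_mul_of_nonneg_left (hmin (sdir_mem hy)) (norm_nonneg _),
      mul_le_mul_of_nonneg_left (hmax (sdir_mem hy)) (norm_nonneg _)⟩

lemma hess_eq_sdir {y : V3} (hy : y ≠ 0) : hess (halfSq h) y = hess (halfSq h) (sdir y) := by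
  have hn : (0 : ℝ) < ‖y‖⁻¹ := inv_pos.2 (norm_pos_iff.2 hy)
  rw [sdir, hess_scale hn.ne' hy H.halfSq_smooth fun z _ => H.halfSq_scale hn.le z]
  rw [show (‖y‖⁻¹ ^ 2 / ‖y‖⁻¹ / ‖y‖⁻¹) = 1 by field_simp, one_smul]

end SmoothNorm

end Vale.Agent.P227.Mirror
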