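import Vale.Agent.P227.Mirror.SmoothVolume

/-!
P227, local form at smooth bodies with mirrors: the two-jet of a perturbed support function
`h * exp (s * g)`; it stays a smooth support function with positive curvature for small `s`.
-/

noncomputable section

namespace Vale.Agent.P227.Mirror

open Set Filter Metric
open scoped Topology ContDiff

/-- Value, gradient and Hessian. -/
abbrev Jet := ℝ × V3 × (Fin 3 → Fin 3 → ℝ)

/-- The two-jet of a function. -/
def jet (F : V3 → ℝ) (y : V3) : Jet := (F y, grad F y, fun i k => hess F y i k)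

/-- The Hessian of `q * exp (2 * a)` without its exponential factor, from the jets of `q`, `a`. -/
def jetMat (P x : Jet) : Matrix (Fin 3) (Fin 3) ℝ := Matrix.of fun i k =>
  P.2.2 i k + 2 * (P.2.1 i * x.2.1 k + x.2.1 i * P.2.1 k) +
    P.1 * (2 * x.2.2 i k + 4 * x.2.1 i * x.2.1 k)

/-- The determinant of the Hessian of `q * exp (2 * a)`, from the jets of `q` and `a`. -/
def Gam (p : Jet × Jet) : ℝ := Real.exp (6 * p.2.1) * Matrix.det (jetMat p.1 p.2)

/-- The perturbed function. -/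
def pert (h g : V3 → ℝ) (s : ℝ) (y : V3) : ℝ := h y * Real.exp (s * g y)

lemma contDiff_jetMat (i k : Fin 3) : ContDiff ℝ 2 fun p : Jet × Jet => jetMat p.1 p.2 i k := by
  simp only [jetMat, Matrix.of_apply]
  fun_prop

lemma contDiff_Gam : ContDiff ℝ 2 Gam := by
  have e := contDiff_jetMat
  have e1 : Gam = fun p => Real.exp (6 * p.2.1) *
      (jetMat p.1 p.2 0 0 * jetMat p.1 p.2 1 1 * jetMat p.1 p.2 2 2
        - jetMat p.1 p.2 0 0 * jetMat p.1 p.2 1 2 * jetMat p.1 p.2 2 1
        - jetMat p.1 p.2 0 1 * jetMat p.1 p.2 1 0 * jetMat p.1 p.2 2 2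
        + jetMat p.1 p.2 0 1 * jetMat p.1 p.2 1 2 * jetMat p.1 p.2 2 0
        + jetMat p.1 p.2 0 2 * jetMat p.1 p.2 1 0 * jetMat p.1 p.2 2 1
        - jetMat p.1 p.2 0 2 * jetMat p.1 p.2 1 1 * jetMat p.1 p.2 2 0) := by
    funext p
    rw [Gam, Matrix.det_fin_three]
  rw [e1]
  exact (by fun_prop : ContDiff ℝ 2 fun p : Jet × Jet => Real.exp (6 * p.2.1)).mul
    (((((((e 0 0).mul (e 1 1)).mul (e 2 2)).sub (((e 0 0).mul (e 1 2)).mul (e 2 1))).sub
      (((e 0 1).mul (e 1 0)).mul (e 2 2))).add (((e 0 1).mul (e 1 2)).mul (e 2 0))).add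
      (((e 0 2).mul (e 1 0)).mul (e 2 1)) |>.sub (((e 0 2).mul (e 1 1)).mul (e 2 0)))

lemma continuousOn_jet {F : V3 → ℝ} (hF : ContDiffOn ℝ 2 F {0}ᶜ) :
    ContinuousOn (jet F) {0}ᶜ :=
  hF.continuousOn.prodMk ((continuousOn_grad hF isOpen_ne_zero).prodMk
    (continuousOn_hess hF isOpen_ne_zero))

lemma hess_sdir_of_homog {f : V3 → ℝ} (hf : ContDiffOn ℝ 2 f {0}ᶜ)
    (hh : ∀ (c : ℝ) (y : V3), 0 ≤ c → f (c • y) = c * f y) {y : V3} (hy : y ≠ 0) :
    hess (halfSq f) y = hess (halfSq f) (sdir y) := by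
  have hn : (0 : ℝ) < ‖y‖⁻¹ := inv_pos.2 (norm_pos_iff.2 hy)
  rw [sdir, hess_scale hn.ne' hy (show ContDiffOn ℝ 2 (halfSq f) {0}ᶜ from
    (hf.pow 2).div_const 2) fun z _ => show halfSq f (‖y‖⁻¹ • z) = ‖y‖⁻¹ ^ 2 * halfSq f z by
      simp only [halfSq, hh _ z hn.le]; ring]
  rw [show (‖y‖⁻¹ ^ 2 / ‖y‖⁻¹ / ‖y‖⁻¹) = 1 by field_simp, one_smul]

lemma EvenPert.apply_sdir {g : V3 → ℝ} (G : EvenPert g) {y : V3} (hy : y ≠ 0) :
    g (sdir y) = g y :=
  G.homog _ _ (inv_pos.2 (norm_pos_iff.2 hy))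

variable {h g : V3 → ℝ}

lemma pert_smooth (H : SmoothNorm h) (G : EvenPert g) (s : ℝ) :
    ContDiffOn ℝ 2 (pert h g s) {0}ᶜ :=
  H.smooth.mul (Real.contDiff_exp.comp_contDiffOn (contDiffOn_const.mul G.smooth))

lemma pert_homog (H : SmoothNorm h) (G : EvenPert g) (s c : ℝ) (y : V3) (hc : 0 ≤ c) :
    pert h g s (c • y) = c * pert h g s y := by
  rcases hc.eq_or_lt with rfl | hc'
  · simp [pert, H.zero]
  · rw [pert, pert, H.homog c y hc, G.homog c y hc', mul_assoc]

lemma halfSq_pert (s : ℝ) (y : V3) :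
    halfSq (pert h g s) y = halfSq h y * Real.exp (2 * (s * g y)) := by
  rw [halfSq, halfSq, pert, mul_pow, ← Real.exp_nat_mul]
  push_cast
  ring

/-- The Hessian of the perturbed function, in terms of the jets. -/
lemma hess_pert (H : SmoothNorm h) (G : EvenPert g) (s : ℝ) {y : V3} (hy : y ≠ 0) (i k : Fin 3) :
    hess (halfSq (pert h g s)) y i k =
      Real.exp (2 * (s * g y)) * jetMat (jet (halfSq h) y) (s • jet g y) i k := by
  set q := halfSq h with hq
  have hqd : ∀ z : V3, z ≠ 0 → HasFDerivAt q (fderiv ℝ q z) z := fun z hz =>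
    ((H.halfSq_smooth.differentiableOn (by norm_num) z hz).differentiableAt
      (isOpen_ne_zero.mem_nhds hz)).hasFDerivAt
  have hgd : ∀ z : V3, z ≠ 0 → HasFDerivAt g (fderiv ℝ g z) z := fun z hz =>
    ((G.smooth.differentiableOn (by norm_num) z hz).differentiableAt
      (isOpen_ne_zero.mem_nhds hz)).hasFDerivAt
  have hgrad : ∀ z : V3, z ≠ 0 → ∀ j, grad (halfSq (pert h g s)) z j =
      (grad q z j + 2 * s * (q z * grad g z j)) * Real.exp (2 * (s * g z)) := fun z hz j => by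
    have h1 : HasFDerivAt (halfSq (pert h g s))
        (q z • (Real.exp (2 * (s * g z)) • ((2 : ℝ) • (s • fderiv ℝ g z))) +
          Real.exp (2 * (s * g z)) • fderiv ℝ q z) z :=
      ((hqd z hz).mul (((hgd z hz).const_mul s).const_mul 2).exp).congr_of_eventuallyEq
        (Eventually.of_forall fun w => halfSq_pert s w)
    rw [grad, h1.fderiv]
    simp only [grad, add_apply, smul_apply, smul_eq_mul]
    ring
  have hgi : HasFDerivAt (fun z => grad q z i) (fderiv ℝ (fun z => grad q z i) y) y :=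
    (((ContDiffOn.grad_apply H.halfSq_smooth isOpen_ne_zero i).differentiableOn one_ne_zero y
      hy).differentiableAt (isOpen_ne_zero.mem_nhds hy)).hasFDerivAt
  have hwi : HasFDerivAt (fun z => grad g z i) (fderiv ℝ (fun z => grad g z i) y) y :=
    (((ContDiffOn.grad_apply G.smooth isOpen_ne_zero i).differentiableOn one_ne_zero y
      hy).differentiableAt (isOpen_ne_zero.mem_nhds hy)).hasFDerivAt
  have h2 : HasFDerivAt (fun z => grad (halfSq (pert h g s)) z i) _ y :=
    ((hgi.add (((hqd y hy).mul hwi).const_mul (2 * s))).mul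
      (((hgd y hy).const_mul s).const_mul 2).exp).congr_of_eventuallyEq
      (eventually_of_mem (isOpen_ne_zero.mem_nhds hy) fun z hz => hgrad z hz i)
  show fderiv ℝ (fun z => grad (halfSq (pert h g s)) z i) y (Pi.single k 1) = _
  rw [h2.fderiv]
  simp only [add_apply, smul_apply, smul_eq_mul, jetMat, Matrix.of_apply, jet, hess, grad, Prod.smul_fst,
    Prod.smul_snd, Pi.smul_apply, Pi.add_apply, Pi.mul_apply]
  ring

lemma det_pert (H : SmoothNorm h) (G : EvenPert g) (s : ℝ) {y : V3} (hy : y ≠ 0) :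
    (hess (halfSq (pert h g s)) y).det =
      Gam (jet (halfSq h) (sdir y), s • jet g (sdir y)) := by
  have hθ : sdir y ≠ 0 := sphere_subset (sdir_mem hy)
  rw [hess_sdir_of_homog (pert_smooth H G s) (pert_homog H G s) hy]
  have e : hess (halfSq (pert h g s)) (sdir y) = Real.exp (2 * (s * g (sdir y))) •
      jetMat (jet (halfSq h) (sdir y)) (s • jet g (sdir y)) := by
    ext i k
    exact hess_pert H G s hθ i k
  rw [e, Matrix.det_smul, Fintype.card_fin, ← Real.exp_nat_mul, Gam]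
  simp only [jet, Prod.smul_fst, smul_eq_mul]
  push_cast
  ring_nf

/-- For small parameters the perturbation is again a smooth support function. -/
theorem smoothNorm_pert (H : SmoothNorm h) (G : EvenPert g) :
    ∀ᶠ s in 𝓝 (0 : ℝ), SmoothNorm (pert h g s) := by
  set S := sphere (0 : V3) 1
  set Φ : ℝ × V3 × V3 → ℝ := fun z =>
    ∑ i, ∑ k, z.2.2 i * jetMat (jet (halfSq h) z.2.1) (z.1 • jet g z.2.1) i k * z.2.2 k
  have hU : IsOpen {z : ℝ × V3 × V3 | z.2.1 ≠ 0} :=
    isOpen_ne_fun (by fun_prop) continuous_const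
  have hΦ : ContinuousOn Φ {z : ℝ × V3 × V3 | z.2.1 ≠ 0} := by
    have h1 : ContinuousOn (fun z : ℝ × V3 × V3 => jet (halfSq h) z.2.1) {z | z.2.1 ≠ 0} :=
      (continuousOn_jet H.halfSq_smooth).comp (by fun_prop) fun z hz => hz
    have h2 : ContinuousOn (fun z : ℝ × V3 × V3 => z.1 • jet g z.2.1) {z | z.2.1 ≠ 0} :=
      continuousOn_fst.smul ((continuousOn_jet G.smooth).comp (by fun_prop) fun z hz => hz)
    refine continuousOn_finsetSum _ fun i _ => continuousOn_finsetSum _ fun k _ => ?_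
    exact (ContinuousOn.mul (by fun_prop)
      ((contDiff_jetMat i k).continuous.comp_continuousOn (h1.prodMk h2))).mul (by fun_prop)
  have key : ∀ᶠ s in 𝓝 (0 : ℝ), ∀ p ∈ S ×ˢ S, 0 < Φ (s, p) := by
    refine ((isCompact_sphere _ _).prod (isCompact_sphere _ _)).eventually_forall_of_forall_eventually
      (P := fun s p => 0 < Φ (s, p)) fun p hp => ?_
    have h1 : p.1 ≠ 0 := sphere_subset hp.1
    refine (hΦ.continuousAt (hU.mem_nhds h1)).eventually (lt_mem_nhds ?_)
    refine lt_of_lt_of_eq (H.curved p.1 h1 p.2 (sphere_subset hp.2)) ?_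
    simp [Φ, jetMat, jet]
  filter_upwards [key] with s hs
  refine ⟨pert_smooth H G s, pert_homog H G s, fun y => by simp [pert, H.even, G.even],
    fun y hy => mul_pos (H.pos y hy) (Real.exp_pos _), fun y hy v hv => ?_⟩
  have h1 := hs (sdir y, sdir v) ⟨sdir_mem hy, sdir_mem hv⟩
  have e : (∑ i, ∑ k, v i * hess (halfSq (pert h g s)) y i k * v k) =
      Real.exp (2 * (s * g (sdir y))) * (‖v‖ ^ 2 * Φ (s, sdir y, sdir v)) := by
    rw [hess_sdir_of_homog (pert_smooth H G s) (pert_homog H G s) hy]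
    simp only [Φ, Finset.mul_sum, hess_pert H G s (sphere_subset (sdir_mem hy))]
    refine Finset.sum_congr rfl fun i _ => Finset.sum_congr rfl fun k _ => ?_
    have hn : ‖v‖ ≠ 0 := norm_ne_zero_iff.2 hv
    simp only [sdir, Pi.smul_apply, smul_eq_mul]
    field_simp
  rw [e]
  have := norm_pos_iff.2 hv
  positivity

end Vale.Agent.P227.Mirror
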