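import Vale.Agent.P227.Mirror.SmoothVariation

/-!
P227, local form at smooth unconditional bodies of three-space: an even perturbation splits into
three parts, each invariant under one sign change of a coordinate; the second variation is additive
on this splitting and, by the inequality for pairs with one common mirror, nonpositive on each part.
-/

noncomputable section

namespace Vale.Agent.P227.Mirror

open MeasureTheory Set Filter
open Vale.Agent.P227.Zono Vale.Agent.P227.Zono.ConeAux
open scoped Topology ContDiff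

/-! ### Sign changes -/

lemma coordFlip_eq_reflect (i : Fin 3) (x : V3) :
    coordFlip i x = reflect (LinearMap.proj i) (Pi.single i 1) x := by
  funext j
  by_cases hj : j = i
  · subst hj
    simp [coordFlip, reflect]
    ring
  · simp [coordFlip, reflect, hj]

/-- The sign change of a coordinate, as a linear map. -/
def flipLin (i : Fin 3) : V3 →ₗ[ℝ] V3 :=
  LinearMap.id - (((2 : ℝ) • LinearMap.proj i : V3 →ₗ[ℝ] ℝ).smulRight (Pi.single i 1))

lemma flipLin_apply (i : Fin 3) (x : V3) : flipLin i x = coordFlip i x := by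
  rw [coordFlip_eq_reflect]
  simp [flipLin, reflect]

lemma coordFlip_coordFlip (i : Fin 3) (x : V3) : coordFlip i (coordFlip i x) = x := by
  funext j
  by_cases hj : j = i
  · subst hj; simp [coordFlip]
  · simp [coordFlip, hj]

lemma dot_coordFlip (i : Fin 3) (y x : V3) :
    ∑ j, coordFlip i y j * x j = ∑ j, y j * coordFlip i x j := by
  refine Finset.sum_congr rfl fun j _ => ?_
  by_cases hj : j = i
  · subst hj; simp [coordFlip]
  · simp [coordFlip, hj]

lemma vol_image_coordFlip (i : Fin 3) (K : Set V3) : vol (coordFlip i '' K) = vol K := by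
  have h2 : (flipLin i).comp (flipLin i) = LinearMap.id := LinearMap.ext fun x => by
    simp [flipLin_apply, coordFlip_coordFlip]
  have hdet : |LinearMap.det (flipLin i)| = 1 := by
    have h3 := congrArg LinearMap.det h2
    rw [LinearMap.det_comp, LinearMap.det_id, ← abs_mul_abs_self] at h3
    nlinarith [abs_nonneg (LinearMap.det (flipLin i))]
  have e : coordFlip i '' K = flipLin i '' K := image_congr fun x _ => (flipLin_apply i x).symm
  rw [e, vol, Measure.addHaar_image_linearMap, hdet, ENNReal.ofReal_one, one_mul, vol]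

/-! ### Operations on perturbations -/

lemma EvenPert.lin {a b : V3 → ℝ} (A : EvenPert a) (B : EvenPert b) (p q : ℝ) :
    EvenPert fun z => p * a z + q * b z :=
  ⟨(contDiffOn_const.mul A.smooth).add (contDiffOn_const.mul B.smooth),
    fun c y hc => by simp [A.homog c y hc, B.homog c y hc],
    fun y => by simp [A.even, B.even]⟩

lemma EvenPert.flip {g : V3 → ℝ} (G : EvenPert g) (i : Fin 3) :
    EvenPert fun z => g (coordFlip i z) := by
  refine ⟨?_, fun c y hc => ?_, fun y => ?_⟩
  · have hl : ContDiff ℝ 2 fun z : V3 => coordFlip i z := by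
      simp only [coordFlip_eq_reflect, reflect, LinearMap.proj_apply]
      fun_prop
    exact G.smooth.comp hl.contDiffOn fun z (hz : z ≠ 0) h0 => hz <| by
      rw [← coordFlip_coordFlip i z, Set.mem_singleton_iff.1 h0, ← flipLin_apply, map_zero]
  · rw [← flipLin_apply, map_smul, flipLin_apply, G.homog c _ hc]
  · rw [← flipLin_apply, map_neg, flipLin_apply, G.even]

variable {h g : V3 → ℝ}

/-! ### The symmetries of the second variation -/

lemma secondVar_congr (H : SmoothNorm h) {a b : V3 → ℝ} (A : EvenPert a) (B : EvenPert b)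
    (e : logVol h a = logVol h b) : secondVar h a = secondVar h b := by
  obtain ⟨Fa, ha, ha'⟩ := hasSecondVar H A
  obtain ⟨Fb, hb, hb'⟩ := hasSecondVar H B
  refine ha'.unique (hb'.congr_of_eventuallyEq ?_)
  filter_upwards [ha, hb] with s h1 h2
  exact (e ▸ h1).unique h2

lemma wulffBody_comp_flip (i : Fin 3) (f : V3 → ℝ) :
    wulffBody (fun y => f (coordFlip i y)) = coordFlip i '' wulffBody f := by
  ext x
  constructor
  · intro hx
    refine ⟨coordFlip i x, fun y => ?_, coordFlip_coordFlip i x⟩
    have h1 : ∑ j, coordFlip i y j * x j ≤ f (coordFlip i (coordFlip i y)) := hx _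
    rwa [coordFlip_coordFlip, dot_coordFlip] at h1
  · rintro ⟨z, hz, rfl⟩ y
    rw [← dot_coordFlip]
    exact hz _

/-- Bodies unchanged by the sign change of coordinate `i`. -/
def FlipInv (f : V3 → ℝ) (i : Fin 3) : Prop := ∀ y, f (coordFlip i y) = f y

lemma secondVar_flip (H : SmoothNorm h) (G : EvenPert g) {i : Fin 3} (hi : FlipInv h i) :
    secondVar h (fun z => g (coordFlip i z)) = secondVar h g := by
  refine secondVar_congr H (G.flip i) G (funext fun s => ?_)
  have e : pert h (fun z => g (coordFlip i z)) s = fun y => pert h g s (coordFlip i y) :=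
    funext fun y => by simp [pert, hi y]
  rw [logVol, logVol, e, wulffBody_comp_flip, vol_image_coordFlip]

/-- The part invariant under the sign change of coordinate `i`. -/
def symPart (g : V3 → ℝ) (i : Fin 3) (z : V3) : ℝ := 1 / 2 * g z + 1 / 2 * g (coordFlip i z)

/-- The part changing its sign with coordinate `i`. -/
def antiPart (g : V3 → ℝ) (i : Fin 3) (z : V3) : ℝ := 1 / 2 * g z + -(1 / 2) * g (coordFlip i z)

lemma EvenPert.symPart (G : EvenPert g) (i : Fin 3) : EvenPert (symPart g i) := G.lin (G.flip i) _ _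

lemma EvenPert.antiPart (G : EvenPert g) (i : Fin 3) : EvenPert (antiPart g i) :=
  G.lin (G.flip i) _ _

/-- The second variation is additive on the two parts. -/
lemma secondVar_split (H : SmoothNorm h) (G : EvenPert g) {i : Fin 3} (hi : FlipInv h i) :
    secondVar h g = secondVar h (symPart g i) + secondVar h (antiPart g i) := by
  have A := G.symPart i
  have B := G.antiPart i
  have e1 : (fun z => 1 * symPart g i z + 1 * antiPart g i z) = g :=
    funext fun z => by simp only [symPart, antiPart]; ring
  have e2 : (fun z => 1 * symPart g i z + -1 * antiPart g i z) = fun z => g (coordFlip i z) :=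
    funext fun z => by simp only [symPart, antiPart]; ring
  have h1 := secondVar_parallelogram H A B (A.lin B 1 1) (A.lin B 1 (-1))
  rw [e1, e2, secondVar_flip H G hi] at h1
  linarith

/-! ### The mirror step -/

lemma flip_mem_wulff {f : V3 → ℝ} {i : Fin 3} (hi : FlipInv f i) {x : V3} (hx : x ∈ wulffBody f) :
    reflect (LinearMap.proj i) (Pi.single i 1) x ∈ wulffBody f := fun y => by
  rw [← coordFlip_eq_reflect, ← dot_coordFlip, ← hi y]
  exact hx _

lemma logVol_midpoint {i : Fin 3} (hi : FlipInv h i) (gi : FlipInv g i) {s : ℝ}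
    (H : SmoothNorm h) (Hp : SmoothNorm (pert h g s)) (Hm : SmoothNorm (pert h g (-s))) :
    logVol h g s + logVol h g (-s) ≤ 2 * logVol h g 0 := by
  set K := wulffBody (pert h g s)
  set L := wulffBody (pert h g (-s))
  have hK := Hp.isBody_wulff
  have hL := Hm.isBody_wulff
  have h0 : pert h g 0 = h := funext fun y => by simp [pert]
  have hsub : logComb K L (1 / 2) ⊆ wulffBody (pert h g 0) := by
    intro x hx y
    refine (hx y).trans ?_
    have hz : ∀ {f : V3 → ℝ}, SmoothNorm f → 0 ≤ supp (wulffBody f) y ∧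
        supp (wulffBody f) y ≤ f y := fun {f} F => by
      refine ⟨?_, supp_le ⟨0, mem_of_mem_nhds F.wulff_nhds⟩ y fun z hz => hz y⟩
      simpa using le_supp F.wulff_compact y (mem_of_mem_nhds F.wulff_nhds)
    rw [show (1 - (1 / 2) : ℝ) = 1 / 2 by norm_num]
    refine (mul_le_mul (Real.rpow_le_rpow (hz Hp).1 (hz Hp).2 (by norm_num))
      (Real.rpow_le_rpow (hz Hm).1 (hz Hm).2 (by norm_num)) (Real.rpow_nonneg (hz Hm).1 _)
      (Real.rpow_nonneg (Hp.nonneg y) _)).trans ?_
    rw [← Real.mul_rpow (Hp.nonneg y) (Hm.nonneg y), h0]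
    have e : pert h g s y * pert h g (-s) y = h y * h y := by
      simp only [pert]
      rw [mul_mul_mul_comm, ← Real.exp_add]
      simp
    rw [e, ← Real.sqrt_eq_rpow, Real.sqrt_mul_self (H.nonneg y)]
  have hW : IsBody (wulffBody (pert h g 0)) := by rw [h0]; exact H.isBody_wulff
  have hi' : ∀ t, FlipInv (pert h g t) i := fun t y => by simp [pert, hi y, gi y]
  have key := (oneReflection (LinearMap.proj i) (Pi.single i 1) (by simp) K L (1 / 2) hK hL
    (fun x hx => flip_mem_wulff (hi' s) hx) (fun x hx => flip_mem_wulff (hi' (-s)) hx)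
    (by norm_num) (by norm_num)).trans (ENNReal.toReal_mono hW.1.measure_lt_top.ne
      (measure_mono (μ := volume) hsub))
  change _ ≤ vol (wulffBody (pert h g 0)) at key
  rw [show (1 - (1 / 2) : ℝ) = 1 / 2 by norm_num] at key
  have hl := Real.log_le_log
    (mul_pos (Real.rpow_pos_of_pos hK.2.2.2 _) (Real.rpow_pos_of_pos hL.2.2.2 _)) key
  rw [Real.log_mul (Real.rpow_pos_of_pos hK.2.2.2 _).ne' (Real.rpow_pos_of_pos hL.2.2.2 _).ne',
    Real.log_rpow hK.2.2.2, Real.log_rpow hL.2.2.2] at hl
  simp only [logVol]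
  linarith

/-- A function below twice its central value after symmetrisation has a nonpositive second
derivative. -/
lemma second_deriv_nonpos {F F1 : ℝ → ℝ} {d : ℝ} (h1 : ∀ᶠ s in 𝓝 0, HasDerivAt F (F1 s) s)
    (h2 : HasDerivAt F1 d 0) (hle : ∀ᶠ s in 𝓝 0, F s + F (-s) ≤ 2 * F 0) : d ≤ 0 := by
  by_contra hd
  push Not at hd
  set G : ℝ → ℝ := fun s => F s + F (-s) with hG
  have hneg : Tendsto (fun s : ℝ => -s) (𝓝 0) (𝓝 0) := by
    simpa using (continuous_neg (G := ℝ)).tendsto 0
  have hG1 : ∀ᶠ s in 𝓝 0, HasDerivAt G (F1 s - F1 (-s)) s := by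
    filter_upwards [h1, hneg.eventually h1] with s a b
    exact (a.add (b.comp s (hasDerivAt_neg s))).congr_deriv (by ring)
  have e1 : deriv G =ᶠ[𝓝 0] fun s => F1 s - F1 (-s) := hG1.mono fun s hs => hs.deriv
  have h2' : HasDerivAt F1 d (-(0 : ℝ)) := by simpa using h2
  have hG2 : HasDerivAt (deriv G) (2 * d) 0 :=
    ((h2.sub (h2'.comp (0 : ℝ) (hasDerivAt_neg (0 : ℝ)))).congr_deriv
      (by ring)).congr_of_eventuallyEq e1
  have hc : ContinuousAt G 0 := hG1.self_of_nhds.continuousAt
  have hmin : IsLocalMin G 0 :=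
    isLocalMin_of_deriv_deriv_pos (by rw [hG2.deriv]; linarith)
      (by rw [e1.self_of_nhds]; simp) hc
  have hconst : ∀ᶠ s in 𝓝 0, G s = G 0 := by
    filter_upwards [hmin, hle] with s a b
    refine le_antisymm ?_ a
    simp only [hG, neg_zero] at b ⊢
    linarith
  have e2 : deriv G =ᶠ[𝓝 0] fun _ => (0 : ℝ) :=
    hconst.eventually_nhds.mono fun s hs =>
      ((hasDerivAt_const s (G 0)).congr_of_eventuallyEq hs).deriv
  have := hG2.unique ((hasDerivAt_const (0 : ℝ) (0 : ℝ)).congr_of_eventuallyEq e2)
  linarith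

lemma secondVar_nonpos_of_flipInv (H : SmoothNorm h) (G : EvenPert g) {i : Fin 3}
    (hi : FlipInv h i) (gi : FlipInv g i) : secondVar h g ≤ 0 := by
  obtain ⟨F1, h1, h2⟩ := hasSecondVar H G
  refine second_deriv_nonpos h1 h2 ?_
  have hneg : Tendsto (fun s : ℝ => -s) (𝓝 0) (𝓝 0) := by
    simpa using (continuous_neg (G := ℝ)).tendsto 0
  filter_upwards [smoothNorm_pert H G, hneg.eventually (smoothNorm_pert H G)] with s a b
  exact logVol_midpoint hi gi H a b

/-- The local form at a smooth unconditional body, against every even perturbation. -/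
theorem secondVar_nonpos (H : SmoothNorm h) (hh : ∀ i, FlipInv h i) (G : EvenPert g) :
    secondVar h g ≤ 0 := by
  set R := antiPart g 0 with hR
  have hRe : EvenPert R := G.antiPart 0
  rw [secondVar_split H G (hh 0), secondVar_split H hRe (hh 1)]
  have comm : ∀ z : V3, coordFlip 0 (coordFlip 1 z) = coordFlip 1 (coordFlip 0 z) := fun z => by
    funext j; fin_cases j <;> simp [coordFlip]
  have neg2 : ∀ z : V3, coordFlip 2 z = -coordFlip 0 (coordFlip 1 z) := fun z => by
    funext j; fin_cases j <;> simp [coordFlip]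
  have hRanti : ∀ z, R (coordFlip 0 z) = -R z := fun z => by
    simp only [hR, antiPart, coordFlip_coordFlip]; ring
  have a1 : FlipInv (symPart g 0) 0 := fun z => by
    simp only [symPart, coordFlip_coordFlip]; ring
  have a2 : FlipInv (symPart R 1) 1 := fun z => by
    simp only [symPart, coordFlip_coordFlip]; ring
  have C := hRe.antiPart 1
  have a3 : FlipInv (antiPart R 1) 2 := fun z => by
    rw [neg2 z, C.even]
    simp only [antiPart]
    rw [← comm (coordFlip 1 z), coordFlip_coordFlip, hRanti, hRanti]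
    ring
  have b1 := secondVar_nonpos_of_flipInv H (G.symPart 0) (hh 0) a1
  have b2 := secondVar_nonpos_of_flipInv H (hRe.symPart 1) (hh 1) a2
  have b3 := secondVar_nonpos_of_flipInv H C (hh 2) a3
  linarith

/-- A smooth support function is the support function of its Wulff body. -/
lemma supp_wulffBody (H : SmoothNorm h) (y : V3) : supp (wulffBody h) y = h y := by
  have hmem := mem_of_mem_nhds H.wulff_nhds
  refine le_antisymm (supp_le ⟨0, hmem⟩ y fun z hz => hz y) ?_
  rcases eq_or_ne y 0 with rfl | hy
  · rw [H.zero]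
    simpa using le_supp H.wulff_compact (0 : V3) hmem
  · have hp := H.pos y hy
    have hx : (h y)⁻¹ • grad (halfSq h) y ∈ wulffBody h := fun u => by
      rw [sum_mul_smul, inv_mul_le_iff₀ hp]
      exact le_of_eq_of_le (Finset.sum_congr rfl fun i _ => mul_comm _ _) (H.grad_dot_le y u)
    refine le_trans (le_of_eq ?_) (le_supp H.wulff_compact y hx)
    rw [sum_mul_smul, show ∑ i, y i * grad (halfSq h) y i = h y ^ 2 from by
      rw [Finset.sum_congr rfl fun i _ => mul_comm (y i) _, H.euler, halfSq]; ring]
    field_simp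

/-- The local form, stated for the logarithm of the volume. -/
theorem unconditional_local (H : SmoothNorm h) (hh : ∀ i y, h (coordFlip i y) = h y)
    (G : EvenPert g) :
    (∀ y, supp (wulffBody h) y = h y) ∧
    (∀ᶠ s in 𝓝 (0 : ℝ), IsBody (wulffBody fun y => h y * Real.exp (s * g y))) ∧
    ∃ (F1 : ℝ → ℝ) (d : ℝ),
      (∀ᶠ s in 𝓝 (0 : ℝ), HasDerivAt
        (fun t => Real.log (vol (wulffBody fun y => h y * Real.exp (t * g y)))) (F1 s) s) ∧
      HasDerivAt F1 d 0 ∧ d ≤ 0 := by
  obtain ⟨F1, h1, h2⟩ := hasSecondVar H G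
  exact ⟨supp_wulffBody H, (smoothNorm_pert H G).mono fun s hs => hs.isBody_wulff,
    F1, secondVar h g, h1, h2, secondVar_nonpos H hh G⟩

end Vale.Agent.P227.Mirror
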