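import Vale.Agent.P227.Mirror.SmoothJet

/-!
P227, local form at smooth bodies with mirrors: the second variation of the logarithm of the volume
along `h * exp (s * g)`, obtained by differentiating twice under the integral sign; it is a
quadratic function of `g`.
-/

noncomputable section

namespace Vale.Agent.P227.Mirror

open MeasureTheory Set Filter Metric
open Vale.Agent.P227.Zono Vale.Agent.P227.Zono.ConeAux
open scoped Topology ContDiff

/-- First derivative of `Gam` in a direction of the second jet. -/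
def Gam₁ (p : Jet × Jet) (j : Jet) : ℝ := fderiv ℝ Gam p (0, j)

/-- Second derivative of `Gam` in a direction of the second jet. -/
def Gam₂ (p : Jet × Jet) (j : Jet) : ℝ := fderiv ℝ (fderiv ℝ Gam) p (0, j) (0, j)

lemma continuous_Gam₁ : Continuous fun z : (Jet × Jet) × Jet => Gam₁ z.1 z.2 :=
  ((contDiff_Gam.continuous_fderiv (by norm_num)).comp continuous_fst).clm_apply (by fun_prop)

lemma continuous_Gam₂ : Continuous fun z : (Jet × Jet) × Jet => Gam₂ z.1 z.2 :=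
  ((((contDiff_Gam.fderiv_right (m := 1) (by norm_num)).continuous_fderiv one_ne_zero).comp
    continuous_fst).clm_apply (by fun_prop)).clm_apply (by fun_prop)

lemma hasDerivAt_jetPath (P j : Jet) (s : ℝ) :
    HasDerivAt (fun t : ℝ => (P, t • j)) ((0 : Jet), j) s := by
  simpa using (hasDerivAt_const s P).prodMk ((hasDerivAt_id s).smul_const j)

lemma hasDerivAt_Gam (P j : Jet) (s : ℝ) :
    HasDerivAt (fun t : ℝ => Gam (P, t • j)) (Gam₁ (P, s • j) j) s :=
  (contDiff_Gam.differentiable (by norm_num) _).hasFDerivAt.comp_hasDerivAt s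
    (hasDerivAt_jetPath P j s)

lemma hasDerivAt_Gam₁ (P j : Jet) (s : ℝ) :
    HasDerivAt (fun t : ℝ => Gam₁ (P, t • j) j) (Gam₂ (P, s • j) j) s := by
  have h := ((contDiff_Gam.fderiv_right (m := 1) (by norm_num)).differentiable one_ne_zero
    (P, s • j)).hasFDerivAt.comp_hasDerivAt s (hasDerivAt_jetPath P j s)
  simpa [Gam₁, Gam₂, Function.comp_def] using h.clm_apply (hasDerivAt_const s ((0 : Jet), j))

/-- The Gaussian factor. -/
def efac (ρ a s : ℝ) : ℝ := Real.exp (-(ρ * Real.exp (2 * (s * a))))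

/-- The integrand, as a function of the parameter, of `ρ = h ^ 2` and of the two jets. -/
def Φ₀ (ρ : ℝ) (P j : Jet) (s : ℝ) : ℝ := efac ρ j.1 s * Gam (P, s • j)

/-- Its first derivative in the parameter. -/
def Φ₁ (ρ : ℝ) (P j : Jet) (s : ℝ) : ℝ :=
  efac ρ j.1 s *
    (Gam₁ (P, s • j) j - 2 * j.1 * ρ * Real.exp (2 * (s * j.1)) * Gam (P, s • j))

/-- Its second derivative in the parameter. -/
def Φ₂ (ρ : ℝ) (P j : Jet) (s : ℝ) : ℝ :=
  efac ρ j.1 s *
    (Gam₂ (P, s • j) j - 4 * j.1 * ρ * Real.exp (2 * (s * j.1)) * Gam₁ (P, s • j) j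
      - 4 * j.1 ^ 2 * ρ * Real.exp (2 * (s * j.1)) * Gam (P, s • j)
      + 4 * j.1 ^ 2 * ρ ^ 2 * Real.exp (2 * (s * j.1)) ^ 2 * Gam (P, s • j))

lemma hasDerivAt_expTwo (a s : ℝ) :
    HasDerivAt (fun t : ℝ => Real.exp (2 * (t * a))) (2 * a * Real.exp (2 * (s * a))) s := by
  have h := (((hasDerivAt_id' s).mul_const a).const_mul 2).exp
  exact h.congr_deriv (by ring)

lemma hasDerivAt_efac (ρ a s : ℝ) :
    HasDerivAt (efac ρ a) (efac ρ a s * -(2 * a * ρ * Real.exp (2 * (s * a)))) s := by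
  have h := ((hasDerivAt_expTwo a s).const_mul ρ).neg.exp
  exact h.congr_deriv (by simp only [efac, Pi.neg_apply]; ring)

lemma hasDerivAt_Φ₀ (ρ : ℝ) (P j : Jet) (s : ℝ) :
    HasDerivAt (Φ₀ ρ P j) (Φ₁ ρ P j s) s :=
  ((hasDerivAt_efac ρ j.1 s).mul (hasDerivAt_Gam P j s)).congr_deriv (by simp only [Φ₁]; ring)

lemma hasDerivAt_Φ₁ (ρ : ℝ) (P j : Jet) (s : ℝ) :
    HasDerivAt (Φ₁ ρ P j) (Φ₂ ρ P j s) s :=
  ((hasDerivAt_efac ρ j.1 s).mul ((hasDerivAt_Gam₁ P j s).sub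
    (((hasDerivAt_expTwo j.1 s).const_mul (2 * j.1 * ρ)).mul (hasDerivAt_Gam P j s)))).congr_deriv
    (by simp only [Φ₂, Pi.sub_apply, Pi.mul_apply]; ring)

/-- The integrand of the Gaussian volume formula and its derivatives. -/
def integrand (Φ : ℝ → Jet → Jet → ℝ → ℝ) (h g : V3 → ℝ) (s : ℝ) (y : V3) : ℝ :=
  Φ (h y ^ 2) (jet (halfSq h) (sdir y)) (jet g (sdir y)) s

variable {h g : V3 → ℝ}

lemma continuousOn_integrand (H : SmoothNorm h) (G : EvenPert g) {Φ : ℝ → Jet → Jet → ℝ → ℝ}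
    (hΦ : Continuous fun z : ℝ × Jet × Jet × ℝ => Φ z.1 z.2.1 z.2.2.1 z.2.2.2) (s : ℝ) :
    ContinuousOn (integrand Φ h g s) {0}ᶜ := by
  have h1 : MapsTo sdir ({0}ᶜ : Set V3) {0}ᶜ := fun y hy => sphere_subset (sdir_mem hy)
  exact hΦ.comp_continuousOn ((H.smooth.continuousOn.pow 2).prodMk
    (((continuousOn_jet H.halfSq_smooth).comp continuousOn_sdir h1).prodMk
      (((continuousOn_jet G.smooth).comp continuousOn_sdir h1).prodMk continuousOn_const)))

lemma aesm_integrand (H : SmoothNorm h) (G : EvenPert g) {Φ : ℝ → Jet → Jet → ℝ → ℝ}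
    (hΦ : Continuous fun z : ℝ × Jet × Jet × ℝ => Φ z.1 z.2.1 z.2.2.1 z.2.2.2) (s : ℝ) :
    AEStronglyMeasurable (integrand Φ h g s) volume := by
  have := (continuousOn_integrand H G hΦ s).aestronglyMeasurable (μ := volume)
    isOpen_ne_zero.measurableSet
  rwa [restrict_compl_singleton] at this

lemma continuous_Φ₀ : Continuous fun z : ℝ × Jet × Jet × ℝ => Φ₀ z.1 z.2.1 z.2.2.1 z.2.2.2 := by
  have h0 := contDiff_Gam.continuous
  simp only [Φ₀, efac]
  exact (by fun_prop : Continuous fun z : ℝ × Jet × Jet × ℝ =>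
    Real.exp (-(z.1 * Real.exp (2 * (z.2.2.2 * z.2.2.1.1))))).mul (h0.comp (by fun_prop))

lemma continuous_path :
    Continuous fun z : ℝ × Jet × Jet × ℝ => ((z.2.1, z.2.2.2 • z.2.2.1), z.2.2.1) := by
  fun_prop

lemma continuous_Φ₁ : Continuous fun z : ℝ × Jet × Jet × ℝ => Φ₁ z.1 z.2.1 z.2.2.1 z.2.2.2 := by
  have h0 := contDiff_Gam.continuous.comp (continuous_fst.comp continuous_path)
  have h1 := continuous_Gam₁.comp continuous_path
  simp only [Function.comp_def] at h0 h1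
  simp only [Φ₁, efac]
  fun_prop

lemma continuous_Φ₂ : Continuous fun z : ℝ × Jet × Jet × ℝ => Φ₂ z.1 z.2.1 z.2.2.1 z.2.2.2 := by
  have h0 := contDiff_Gam.continuous.comp (continuous_fst.comp continuous_path)
  have h1 := continuous_Gam₁.comp continuous_path
  have h2 := continuous_Gam₂.comp continuous_path
  simp only [Function.comp_def] at h0 h1 h2
  simp only [Φ₂, efac]
  fun_prop

lemma integrable_gauss {b : ℝ} (hb : 0 < b) :
    Integrable (fun y : V3 => Real.exp (-(b * ‖y‖ ^ 2))) := by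
  have h1 : Integrable (fun y : V3 => ∏ i, Real.exp (-(b / 3) * y i ^ 2)) :=
    Integrable.fintype_prod fun _ => integrable_exp_neg_mul_sq (by positivity)
  refine h1.mono' (by fun_prop) (Eventually.of_forall fun y => ?_)
  rw [Real.norm_of_nonneg (Real.exp_pos _).le, ← Real.exp_sum]
  refine Real.exp_le_exp.2 ?_
  have h2 : ∀ i, y i ^ 2 ≤ ‖y‖ ^ 2 := fun i => by
    rw [← sq_abs (y i)]
    exact pow_le_pow_left₀ (abs_nonneg _) (norm_le_pi_norm y i) 2
  rw [Fin.sum_univ_three]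
  nlinarith [h2 0, h2 1, h2 2]

/-- The domination. -/
lemma exists_dominant (H : SmoothNorm h) (G : EvenPert g) :
    ∃ C b : ℝ, 0 < b ∧ ∀ y : V3, y ≠ 0 → ∀ s ∈ Icc (-1 : ℝ) 1,
      |integrand Φ₀ h g s y| ≤ C * Real.exp (-(b * ‖y‖ ^ 2)) ∧
      |integrand Φ₁ h g s y| ≤ C * Real.exp (-(b * ‖y‖ ^ 2)) ∧
      |integrand Φ₂ h g s y| ≤ C * Real.exp (-(b * ‖y‖ ^ 2)) := by
  obtain ⟨c, C₀, hc, -, hb⟩ := H.exists_bounds
  have hK : IsCompact (Icc (-1 : ℝ) 1 ×ˢ sphere (0 : V3) 1) :=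
    isCompact_Icc.prod (isCompact_sphere _ _)
  have hP : ContinuousOn (fun z : ℝ × V3 =>
      (((jet (halfSq h) z.2, z.1 • jet g z.2), jet g z.2) : (Jet × Jet) × Jet))
      (Icc (-1 : ℝ) 1 ×ˢ sphere (0 : V3) 1) := by
    have hm : MapsTo (fun z : ℝ × V3 => z.2) (Icc (-1 : ℝ) 1 ×ˢ sphere (0 : V3) 1) {0}ᶜ :=
      fun z hz => sphere_subset hz.2
    have hj := (continuousOn_jet G.smooth).comp continuousOn_snd hm
    exact (((continuousOn_jet H.halfSq_smooth).comp continuousOn_snd hm).prodMk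
      (continuousOn_fst.smul hj)).prodMk hj
  obtain ⟨K0, h0⟩ := hK.exists_bound_of_continuousOn
    ((contDiff_Gam.continuous.comp continuous_fst).comp_continuousOn hP)
  obtain ⟨K1, h1⟩ := hK.exists_bound_of_continuousOn (continuous_Gam₁.comp_continuousOn hP)
  obtain ⟨K2, h2⟩ := hK.exists_bound_of_continuousOn (continuous_Gam₂.comp_continuousOn hP)
  obtain ⟨A, hA⟩ := (isCompact_sphere (0 : V3) 1).exists_bound_of_continuousOn
    (G.smooth.continuousOn.mono sphere_subset)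
  set A' := |A| + 1 with hA'
  set κ := Real.exp (-(2 * A')) with hκ
  set M := Real.exp (2 * A') with hM
  have hκ0 : 0 < κ := Real.exp_pos _
  refine ⟨(|K0| + |K1| + |K2|) * (1 + 4 * A' * M + 4 * A' ^ 2 * M + 4 * A' ^ 2 * M ^ 2) *
    (1 + 4 / κ) ^ 2, κ / 2 * c ^ 2, by positivity, fun y hy s hs => ?_⟩
  set θ := sdir y
  set j := jet g θ
  set ρ := h y ^ 2 with hρ
  have hmem : (s, θ) ∈ Icc (-1 : ℝ) 1 ×ˢ sphere (0 : V3) 1 := ⟨hs, sdir_mem hy⟩
  have a1 : |j.1| ≤ A' := by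
    have := hA θ (sdir_mem hy)
    rw [Real.norm_eq_abs] at this
    linarith [le_abs_self A, show |j.1| = |g θ| from rfl]
  have hA0 : 0 ≤ A' := (abs_nonneg _).trans a1
  have hsa : |s * j.1| ≤ A' := by
    rw [abs_mul]
    exact (mul_le_of_le_one_left (abs_nonneg _) (abs_le.2 hs)).trans a1
  obtain ⟨hsa1, hsa2⟩ := abs_le.1 hsa
  set m := Real.exp (2 * (s * j.1)) with hm
  have m1 : m ≤ M := Real.exp_le_exp.2 (by linarith)
  have m2 : κ ≤ m := Real.exp_le_exp.2 (by linarith)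
  have m0 : 0 < m := Real.exp_pos _
  have hρ0 : 0 ≤ ρ := sq_nonneg _
  set p := (1 + ρ) ^ 2 with hp
  have p1 : 1 ≤ p := one_le_pow₀ (by linarith)
  have p2 : ρ ≤ p := by nlinarith
  have p3 : ρ ^ 2 ≤ p := by nlinarith
  have e1 : efac ρ j.1 s * p ≤ (1 + 4 / κ) ^ 2 * Real.exp (-(κ / 2 * c ^ 2 * ‖y‖ ^ 2)) := by
    have q1 : 1 + ρ ≤ (1 + 4 / κ) * Real.exp (κ * ρ / 4) := by
      refine le_trans ?_ (mul_le_mul_of_nonneg_left (Real.add_one_le_exp _) (by positivity))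
      have : (1 + 4 / κ) * (κ * ρ / 4 + 1) = 1 + 4 / κ + κ * ρ / 4 + ρ := by field_simp; ring
      rw [this]
      have : 0 ≤ 4 / κ + κ * ρ / 4 := by positivity
      linarith
    have q2 : (c * ‖y‖) ^ 2 ≤ ρ := pow_le_pow_left₀ (by positivity) (hb y).1 2
    calc efac ρ j.1 s * p
        ≤ Real.exp (-(κ * ρ)) * ((1 + 4 / κ) * Real.exp (κ * ρ / 4)) ^ 2 := by
          refine mul_le_mul (Real.exp_le_exp.2 ?_) (pow_le_pow_left₀ (by linarith) q1 2)
            (by positivity) (Real.exp_pos _).le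
          nlinarith
      _ = (1 + 4 / κ) ^ 2 * Real.exp (-(κ / 2 * ρ)) := by
          rw [mul_pow, ← Real.exp_nat_mul, mul_left_comm, ← Real.exp_add]
          push_cast
          ring_nf
      _ ≤ _ := mul_le_mul_of_nonneg_left (Real.exp_le_exp.2 (by nlinarith)) (by positivity)
  have g0 : |Gam (jet (halfSq h) θ, s • j)| ≤ |K0| := (h0 _ hmem).trans (le_abs_self _)
  have g1 : |Gam₁ (jet (halfSq h) θ, s • j) j| ≤ |K1| := (h1 _ hmem).trans (le_abs_self _)
  have g2 : |Gam₂ (jet (halfSq h) θ, s • j) j| ≤ |K2| := (h2 _ hmem).trans (le_abs_self _)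
  set G0 := Gam (jet (halfSq h) θ, s • j)
  set G1 := Gam₁ (jet (halfSq h) θ, s • j) j
  set G2 := Gam₂ (jet (halfSq h) θ, s • j) j
  set S := |K0| + |K1| + |K2|
  set L := 1 + 4 * A' * M + 4 * A' ^ 2 * M + 4 * A' ^ 2 * M ^ 2
  have hL1 : 1 ≤ L := by
    have : 0 ≤ 4 * A' * M + 4 * A' ^ 2 * M + 4 * A' ^ 2 * M ^ 2 := by positivity
    linarith
  have hS : |K0| ≤ S ∧ |K1| ≤ S ∧ |K2| ≤ S :=
    ⟨by linarith [abs_nonneg K1, abs_nonneg K2], by linarith [abs_nonneg K0, abs_nonneg K2],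
      by linarith [abs_nonneg K0, abs_nonneg K1]⟩
  have fin : ∀ X, |X| ≤ S * L * p → |efac ρ j.1 s * X| ≤ S * L * (1 + 4 / κ) ^ 2 *
      Real.exp (-(κ / 2 * c ^ 2 * ‖y‖ ^ 2)) := by
    intro X hX
    have he : 0 ≤ efac ρ j.1 s := (Real.exp_pos _).le
    rw [abs_mul, abs_of_nonneg he]
    calc efac ρ j.1 s * |X| ≤ efac ρ j.1 s * (S * L * p) := mul_le_mul_of_nonneg_left hX he
      _ = S * L * (efac ρ j.1 s * p) := by ring
      _ ≤ S * L * ((1 + 4 / κ) ^ 2 * Real.exp (-(κ / 2 * c ^ 2 * ‖y‖ ^ 2))) :=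
          mul_le_mul_of_nonneg_left e1 (by positivity)
      _ = _ := by ring
  have hSL : ∀ {x k : ℝ}, |x| ≤ k → k ≤ S → 1 * |x| ≤ S * p := fun hx hk => by
    rw [one_mul]
    exact (hx.trans hk).trans (le_mul_of_one_le_right (by positivity) p1)
  have t1 : |2 * j.1 * ρ * m * G0| ≤ 4 * A' * M * (S * p) := by
    have : |2 * j.1 * ρ * m * G0| = 2 * |j.1| * m * (|G0| * ρ) := by
      rw [abs_mul, abs_mul, abs_mul, abs_mul, abs_of_nonneg hρ0, abs_of_pos m0, abs_two]; ring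
    rw [this]
    refine mul_le_mul ?_ (mul_le_mul (g0.trans hS.1) p2 hρ0 (by positivity)) (by positivity)
      (by positivity)
    nlinarith [abs_nonneg j.1]
  have t2 : |4 * j.1 * ρ * m * G1| ≤ 4 * A' * M * (S * p) := by
    have : |4 * j.1 * ρ * m * G1| = 4 * |j.1| * m * (|G1| * ρ) := by
      rw [abs_mul, abs_mul, abs_mul, abs_mul, abs_of_nonneg hρ0, abs_of_pos m0,
        abs_of_pos (show (0 : ℝ) < 4 by norm_num)]
      ring
    rw [this]
    refine mul_le_mul ?_ (mul_le_mul (g1.trans hS.2.1) p2 hρ0 (by positivity)) (by positivity)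
      (by positivity)
    exact mul_le_mul (by linarith) m1 m0.le (by positivity)
  have a2 : j.1 ^ 2 ≤ A' ^ 2 := by
    rw [← sq_abs j.1]; exact pow_le_pow_left₀ (abs_nonneg _) a1 2
  have t3 : |4 * j.1 ^ 2 * ρ * m * G0| ≤ 4 * A' ^ 2 * M * (S * p) := by
    have : |4 * j.1 ^ 2 * ρ * m * G0| = 4 * j.1 ^ 2 * m * (|G0| * ρ) := by
      rw [abs_mul, abs_of_nonneg (by positivity : 0 ≤ 4 * j.1 ^ 2 * ρ * m)]; ring
    rw [this]
    refine mul_le_mul ?_ (mul_le_mul (g0.trans hS.1) p2 hρ0 (by positivity)) (by positivity)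
      (by positivity)
    exact mul_le_mul (by linarith) m1 m0.le (by positivity)
  have t4 : |4 * j.1 ^ 2 * ρ ^ 2 * m ^ 2 * G0| ≤ 4 * A' ^ 2 * M ^ 2 * (S * p) := by
    have : |4 * j.1 ^ 2 * ρ ^ 2 * m ^ 2 * G0| = 4 * j.1 ^ 2 * m ^ 2 * (|G0| * ρ ^ 2) := by
      rw [abs_mul, abs_of_nonneg (by positivity : 0 ≤ 4 * j.1 ^ 2 * ρ ^ 2 * m ^ 2)]; ring
    rw [this]
    refine mul_le_mul ?_ (mul_le_mul (g0.trans hS.1) p3 (sq_nonneg _) (by positivity))
      (by positivity) (by positivity)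
    exact mul_le_mul (by linarith) (pow_le_pow_left₀ m0.le m1 2) (by positivity) (by positivity)
  have n1 : 0 ≤ 4 * A' * M * (S * p) := by positivity
  have n2 : 0 ≤ 4 * A' ^ 2 * M * (S * p) := by positivity
  have n3 : 0 ≤ 4 * A' ^ 2 * M ^ 2 * (S * p) := by positivity
  have eL : S * L * p = 1 * (S * p) + 4 * A' * M * (S * p) + 4 * A' ^ 2 * M * (S * p) +
      4 * A' ^ 2 * M ^ 2 * (S * p) := by ring
  refine ⟨fin G0 ?_, fin _ ?_, fin _ ?_⟩
  · linarith [hSL g0 hS.1]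
  · linarith [abs_sub G1 (2 * j.1 * ρ * m * G0), hSL g1 hS.2.1]
  · linarith [abs_add_le (G2 - 4 * j.1 * ρ * m * G1 - 4 * j.1 ^ 2 * ρ * m * G0)
      (4 * j.1 ^ 2 * ρ ^ 2 * m ^ 2 * G0),
      abs_sub (G2 - 4 * j.1 * ρ * m * G1) (4 * j.1 ^ 2 * ρ * m * G0),
      abs_sub G2 (4 * j.1 * ρ * m * G1), hSL g2 hS.2.2]

/-- The Gaussian integrals of the integrand and its derivatives. -/
def gaussInt (Φ : ℝ → Jet → Jet → ℝ → ℝ) (h g : V3 → ℝ) (s : ℝ) : ℝ :=
  ∫ y, integrand Φ h g s y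

lemma gaussInt_hasDerivAt (H : SmoothNorm h) (G : EvenPert g) :
    ∀ s ∈ Ioo (-1 : ℝ) 1, HasDerivAt (gaussInt Φ₀ h g) (gaussInt Φ₁ h g s) s ∧
      HasDerivAt (gaussInt Φ₁ h g) (gaussInt Φ₂ h g s) s ∧
      Integrable (integrand Φ₁ h g s) ∧ Integrable (integrand Φ₂ h g s) := by
  obtain ⟨C, b, hb, hdom⟩ := exists_dominant H G
  have hbd : Integrable (fun y : V3 => C * Real.exp (-(b * ‖y‖ ^ 2))) :=
    (integrable_gauss hb).const_mul C
  intro s hs
  have hne := Measure.ae_ne (volume : Measure V3) 0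
  have hI : Icc (-1 : ℝ) 1 ∈ 𝓝 s := Icc_mem_nhds hs.1 hs.2
  have d0 := hasDerivAt_integral_of_dominated_loc_of_deriv_le (μ := (volume : Measure V3))
    (F := integrand Φ₀ h g) (F' := integrand Φ₁ h g) hI
    (Eventually.of_forall fun t => aesm_integrand H G continuous_Φ₀ t)
    (hbd.mono' (aesm_integrand H G continuous_Φ₀ s)
      (hne.mono fun y hy => (hdom y hy s (Ioo_subset_Icc_self hs)).1))
    (aesm_integrand H G continuous_Φ₁ s)
    (hne.mono fun y hy t ht => (hdom y hy t ht).2.1) hbd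
    (Eventually.of_forall fun y t _ => hasDerivAt_Φ₀ _ _ _ t)
  have d1 := hasDerivAt_integral_of_dominated_loc_of_deriv_le (μ := (volume : Measure V3))
    (F := integrand Φ₁ h g) (F' := integrand Φ₂ h g) hI
    (Eventually.of_forall fun t => aesm_integrand H G continuous_Φ₁ t) d0.1
    (aesm_integrand H G continuous_Φ₂ s)
    (hne.mono fun y hy t ht => (hdom y hy t ht).2.2) hbd
    (Eventually.of_forall fun y t _ => hasDerivAt_Φ₁ _ _ _ t)
  exact ⟨d0.2, d1.2, d0.1, d1.1⟩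

lemma gaussInt_eq_vol (H : SmoothNorm h) (G : EvenPert g) :
    ∀ᶠ s in 𝓝 (0 : ℝ),
      Real.Gamma (5 / 2) * vol (wulffBody (pert h g s)) = gaussInt Φ₀ h g s := by
  filter_upwards [smoothNorm_pert H G] with s Hs
  rw [Hs.volume_formula, restrict_compl_singleton]
  refine integral_congr_ae ((Measure.ae_ne volume (0 : V3)).mono fun y hy => ?_)
  simp only [integrand, Φ₀, efac, det_pert H G s hy]
  rw [show (jet g (sdir y)).1 = g y from G.apply_sdir hy, pert, mul_pow, ← Real.exp_nat_mul]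
  push_cast
  ring

/-- The logarithm of the volume along the perturbation. -/
def logVol (h g : V3 → ℝ) (s : ℝ) : ℝ := Real.log (vol (wulffBody (pert h g s)))

/-- The second variation of the logarithm of the volume. -/
def secondVar (h g : V3 → ℝ) : ℝ :=
  gaussInt Φ₂ h g 0 / gaussInt Φ₀ h g 0 - (gaussInt Φ₁ h g 0 / gaussInt Φ₀ h g 0) ^ 2

theorem hasSecondVar (H : SmoothNorm h) (G : EvenPert g) :
    ∃ F1 : ℝ → ℝ, (∀ᶠ s in 𝓝 0, HasDerivAt (logVol h g) (F1 s) s) ∧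
      HasDerivAt F1 (secondVar h g) 0 := by
  have hΓ : 0 < Real.Gamma (5 / 2) := Real.Gamma_pos_of_pos (by norm_num)
  have hev := (gaussInt_eq_vol H G).and (smoothNorm_pert H G)
  have hIoo : ∀ᶠ s in 𝓝 (0 : ℝ), s ∈ Ioo (-1 : ℝ) 1 :=
    Ioo_mem_nhds (by norm_num) one_pos
  have hpos : ∀ᶠ s in 𝓝 (0 : ℝ), 0 < gaussInt Φ₀ h g s :=
    hev.mono fun s hs => hs.1 ▸ mul_pos hΓ hs.2.isBody_wulff.2.2.2
  refine ⟨fun s => gaussInt Φ₁ h g s / gaussInt Φ₀ h g s, ?_, ?_⟩
  · filter_upwards [hev.eventually_nhds, hIoo, hpos] with s hs hI hp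
    have e : logVol h g =ᶠ[𝓝 s]
        fun t => Real.log (gaussInt Φ₀ h g t) - Real.log (Real.Gamma (5 / 2)) := by
      filter_upwards [hs] with t ht
      rw [← ht.1, Real.log_mul hΓ.ne' ht.2.isBody_wulff.2.2.2.ne', logVol]
      ring
    exact (((gaussInt_hasDerivAt H G s hI).1.log hp.ne').sub_const _).congr_of_eventuallyEq e
  · have hI : (0 : ℝ) ∈ Ioo (-1 : ℝ) 1 := by norm_num
    obtain ⟨d0, d1, -, -⟩ := gaussInt_hasDerivAt H G 0 hI
    refine (d1.div d0 hpos.self_of_nhds.ne').congr_deriv ?_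
    have := hpos.self_of_nhds.ne'
    rw [secondVar]
    field_simp

lemma jet_lin {a b : V3 → ℝ} (ha : ContDiffOn ℝ 2 a {0}ᶜ) (hb : ContDiffOn ℝ 2 b {0}ᶜ)
    (p q : ℝ) {y : V3} (hy : y ≠ 0) :
    jet (fun z => p * a z + q * b z) y = p • jet a y + q • jet b y := by
  have hd : ∀ {f : V3 → ℝ}, ContDiffOn ℝ 2 f {0}ᶜ → ∀ z : V3, z ≠ 0 →
      HasFDerivAt f (fderiv ℝ f z) z := fun hf z hz =>
    ((hf.differentiableOn (by norm_num) z hz).differentiableAt
      (isOpen_ne_zero.mem_nhds hz)).hasFDerivAt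
  have hg : ∀ z : V3, z ≠ 0 → ∀ i, grad (fun z => p * a z + q * b z) z i =
      p * grad a z i + q * grad b z i := fun z hz i => by
    have e : HasFDerivAt (fun z => p * a z + q * b z)
        (p • fderiv ℝ a z + q • fderiv ℝ b z) z :=
      ((hd ha z hz).const_mul p).add ((hd hb z hz).const_mul q)
    rw [grad, e.fderiv]
    simp [grad]
  have h1 : ∀ {f : V3 → ℝ}, ContDiffOn ℝ 2 f {0}ᶜ → ∀ i, HasFDerivAt (fun z => grad f z i)
      (fderiv ℝ (fun z => grad f z i) y) y := fun hf i =>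
    (((ContDiffOn.grad_apply hf isOpen_ne_zero i).differentiableOn one_ne_zero y hy
      ).differentiableAt (isOpen_ne_zero.mem_nhds hy)).hasFDerivAt
  refine Prod.ext (by simp [jet]) (Prod.ext (funext fun i => by simp [jet, hg y hy]) ?_)
  funext i k
  show fderiv ℝ (fun z => grad (fun w => p * a w + q * b w) z i) y (Pi.single k 1) = _
  rw [((((h1 ha i).const_mul p).add ((h1 hb i).const_mul q)).congr_of_eventuallyEq
    (eventually_of_mem (isOpen_ne_zero.mem_nhds hy) fun z hz => hg z hz i)).fderiv]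
  simp [jet, hess, grad]

/-- The second variation satisfies the parallelogram law. -/
theorem secondVar_parallelogram (H : SmoothNorm h) {a b : V3 → ℝ} (A : EvenPert a) (B : EvenPert b)
    (S : EvenPert fun z => 1 * a z + 1 * b z) (D : EvenPert fun z => 1 * a z + -1 * b z) :
    secondVar h (fun z => 1 * a z + 1 * b z) + secondVar h (fun z => 1 * a z + -1 * b z) =
      2 * secondVar h a + 2 * secondVar h b := by
  have h0 : (0 : ℝ) ∈ Ioo (-1 : ℝ) 1 := by norm_num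
  obtain ⟨-, -, a1, a2⟩ := gaussInt_hasDerivAt H A 0 h0
  obtain ⟨-, -, b1, b2⟩ := gaussInt_hasDerivAt H B 0 h0
  obtain ⟨-, -, s1, s2⟩ := gaussInt_hasDerivAt H S 0 h0
  obtain ⟨-, -, d1, d2⟩ := gaussInt_hasDerivAt H D 0 h0
  have z0 : ∀ g, gaussInt Φ₀ h g 0 = gaussInt Φ₀ h a 0 := fun g =>
    integral_congr_ae (Eventually.of_forall fun y => by simp [integrand, Φ₀, efac])
  have hne := Measure.ae_ne (volume : Measure V3) 0
  have es : gaussInt Φ₁ h (fun z => 1 * a z + 1 * b z) 0 =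
      gaussInt Φ₁ h a 0 + gaussInt Φ₁ h b 0 := by
    simp only [gaussInt]
    rw [← integral_add a1 b1]
    refine integral_congr_ae (hne.mono fun y hy => ?_)
    simp only [integrand, jet_lin A.smooth B.smooth _ _ (sphere_subset (sdir_mem hy)), one_smul,
      Φ₁, efac, zero_smul, zero_mul, mul_zero, Real.exp_zero, mul_one, Gam₁, Prod.fst_add]
    rw [show ((0 : Jet), jet a (sdir y) + jet b (sdir y)) =
      ((0 : Jet), jet a (sdir y)) + ((0 : Jet), jet b (sdir y)) by simp, map_add]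
    ring
  have ed : gaussInt Φ₁ h (fun z => 1 * a z + -1 * b z) 0 =
      gaussInt Φ₁ h a 0 - gaussInt Φ₁ h b 0 := by
    simp only [gaussInt]
    rw [← integral_sub a1 b1]
    refine integral_congr_ae (hne.mono fun y hy => ?_)
    simp only [integrand, jet_lin A.smooth B.smooth _ _ (sphere_subset (sdir_mem hy)), one_smul,
      neg_one_smul, Φ₁, efac, zero_smul, zero_mul, mul_zero, Real.exp_zero, mul_one, Gam₁,
      Prod.fst_add, Prod.fst_neg]
    rw [show ((0 : Jet), jet a (sdir y) + -jet b (sdir y)) =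
      ((0 : Jet), jet a (sdir y)) - ((0 : Jet), jet b (sdir y)) by simp [sub_eq_add_neg], map_sub]
    ring
  have e2 : gaussInt Φ₂ h (fun z => 1 * a z + 1 * b z) 0 +
      gaussInt Φ₂ h (fun z => 1 * a z + -1 * b z) 0 =
      2 * gaussInt Φ₂ h a 0 + 2 * gaussInt Φ₂ h b 0 := by
    simp only [gaussInt]
    rw [← integral_add s2 d2, ← integral_const_mul, ← integral_const_mul,
      ← integral_add (a2.const_mul 2) (b2.const_mul 2)]
    refine integral_congr_ae (hne.mono fun y hy => ?_)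
    simp only [integrand, jet_lin A.smooth B.smooth _ _ (sphere_subset (sdir_mem hy)), one_smul,
      neg_one_smul, Φ₂, efac, zero_smul, zero_mul, mul_zero, Real.exp_zero, mul_one, Gam₁, Gam₂,
      Prod.fst_add, Prod.fst_neg]
    rw [show ((0 : Jet), jet a (sdir y) + jet b (sdir y)) =
      ((0 : Jet), jet a (sdir y)) + ((0 : Jet), jet b (sdir y)) by simp,
      show ((0 : Jet), jet a (sdir y) + -jet b (sdir y)) =
      ((0 : Jet), jet a (sdir y)) + -((0 : Jet), jet b (sdir y)) by simp]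
    simp only [map_add, map_neg, add_apply, neg_apply]
    ring
  simp only [secondVar, z0 (fun z => 1 * a z + 1 * b z), z0 (fun z => 1 * a z + -1 * b z), z0 b,
    es, ed]
  linear_combination (1 / gaussInt Φ₀ h a 0) * e2

end Vale.Agent.P227.Mirror
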