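import Vale.Agent.P227.Mirror.SmoothBase

/-!
P227, local form at smooth bodies with mirrors: the volume of the body with smooth support
function `f` as a Gaussian integral of the determinant of the Hessian of `f² / 2`, by the change of
variables `x = ∇(f² / 2)(y)`.
-/

noncomputable section

namespace Vale.Agent.P227.Mirror

open MeasureTheory Set Filter Metric
open Vale.Agent.P227.Zono Vale.Agent.P227.Zono.ConeAux
open scoped Topology Pointwise

/-- The Wulff body of `f`; the bound is homogeneous, so all vectors may replace unit ones. -/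
def wulffBody (f : V3 → ℝ) : Set V3 := {x | ∀ y : V3, ∑ i, y i * x i ≤ f y}

namespace SmoothNorm

variable {h : V3 → ℝ} (H : SmoothNorm h)
include H

lemma grad_scale_pos {c : ℝ} (hc : 0 < c) {y : V3} (hy : y ≠ 0) :
    grad (halfSq h) (c • y) = c • grad (halfSq h) y := by
  rw [grad_scale hc.ne' hy (H.halfSq_smooth.differentiableOn (by norm_num))
    fun z _ => H.halfSq_scale hc.le z, pow_two, mul_div_assoc, div_self hc.ne', mul_one]

lemma hasFDerivAt_zero : HasFDerivAt (halfSq h) (0 : V3 →L[ℝ] ℝ) 0 := by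
  obtain ⟨c, C, -, hC, hb⟩ := H.exists_bounds
  refine HasFDerivAt.of_isLittleO (Asymptotics.isLittleO_iff.2 fun ε hε => ?_)
  filter_upwards [Metric.ball_mem_nhds (0 : V3) (div_pos hε (pow_pos hC 2))] with y hy
  rw [mem_ball_zero_iff, lt_div_iff₀ (pow_pos hC 2)] at hy
  simp only [zero_apply, sub_zero, halfSq, H.zero]
  rw [Real.norm_eq_abs, abs_of_nonneg (by simpa using div_nonneg (sq_nonneg (h y)) two_pos.le)]
  nlinarith [pow_le_pow_left₀ (H.nonneg y) (hb y).2 2, norm_nonneg y,
    mul_le_mul_of_nonneg_right hy.le (norm_nonneg y)]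

lemma differentiable_halfSq : Differentiable ℝ (halfSq h) := fun y => by
  rcases eq_or_ne y 0 with rfl | hy
  · exact H.hasFDerivAt_zero.differentiableAt
  · exact (H.halfSq_smooth.differentiableOn (by norm_num) y hy).differentiableAt
      (isOpen_ne_zero.mem_nhds hy)

lemma grad_zero : grad (halfSq h) 0 = 0 := by
  funext i
  simp [grad, H.hasFDerivAt_zero.fderiv]

lemma exists_grad_bound : ∃ R : ℝ, ∀ y, ‖grad (halfSq h) y‖ ≤ R * ‖y‖ := by
  obtain ⟨R, hR⟩ := (isCompact_sphere (0 : V3) 1).exists_bound_of_continuousOn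
    ((continuousOn_grad H.halfSq_smooth isOpen_ne_zero).mono sphere_subset)
  refine ⟨R, fun y => ?_⟩
  rcases eq_or_ne y 0 with rfl | hy
  · simp [H.grad_zero]
  · have hn : 0 < ‖y‖ := norm_pos_iff.2 hy
    have e : y = ‖y‖ • sdir y := by rw [sdir, smul_inv_smul₀ hn.ne']
    conv_lhs => rw [e, H.grad_scale_pos hn (sphere_subset (sdir_mem hy)), norm_smul,
      Real.norm_of_nonneg hn.le, mul_comm]
    exact mul_le_mul_of_nonneg_right (hR _ (sdir_mem hy)) hn.le

lemma continuous_grad : Continuous (grad (halfSq h)) := by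
  obtain ⟨R, hR⟩ := H.exists_grad_bound
  rw [continuous_iff_continuousAt]
  intro y
  rcases eq_or_ne y 0 with rfl | hy
  · rw [ContinuousAt, H.grad_zero]
    exact squeeze_zero_norm hR (Continuous.tendsto' (by fun_prop) _ _ (by simp))
  · exact (continuousOn_grad H.halfSq_smooth isOpen_ne_zero).continuousAt
      (isOpen_ne_zero.mem_nhds hy)

lemma hasFDerivAt_grad {y : V3} (hy : y ≠ 0) :
    ∃ L : V3 →L[ℝ] V3, HasFDerivAt (grad (halfSq h)) L y ∧
      (∀ v i, L v i = ∑ k, hess (halfSq h) y i k * v k) ∧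
      L.det = (hess (halfSq h) y).det := by
  let L : V3 →L[ℝ] V3 :=
    ContinuousLinearMap.pi fun i => fderiv ℝ (fun z => grad (halfSq h) z i) y
  have hL : ∀ v i, L v i = ∑ k, hess (halfSq h) y i k * v k := fun v i =>
    fderiv_eq_dot (fun z => grad (halfSq h) z i) y v
  refine ⟨L, hasFDerivAt_pi.2 fun i =>
    (((ContDiffOn.grad_apply H.halfSq_smooth isOpen_ne_zero i).differentiableOn one_ne_zero y
      hy).differentiableAt (isOpen_ne_zero.mem_nhds hy)).hasFDerivAt, hL, ?_⟩
  rw [ContinuousLinearMap.det, ← LinearMap.det_toMatrix']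
  congr 1

lemma det_hess_pos {y : V3} (hy : y ≠ 0) : 0 < (hess (halfSq h) y).det := by
  refine (Matrix.PosDef.of_dotProduct_mulVec_pos (Matrix.IsHermitian.ext fun i k => ?_)
    fun v hv => ?_).det_pos
  · simpa using hess_symm H.halfSq_smooth hy k i
  · refine lt_of_lt_of_eq (H.curved y hy v hv) ?_
    simp [dotProduct, Matrix.mulVec, Finset.mul_sum, mul_assoc]

/-- The gradient is strictly monotone. -/
lemma grad_injective : Function.Injective (grad (halfSq h)) := by
  intro a b hab
  by_contra hne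
  set d := b - a with hd
  have hd0 : d ≠ 0 := sub_ne_zero.2 (Ne.symm hne)
  set φ : ℝ → ℝ := fun t => ∑ i, grad (halfSq h) (a + t • d) i * d i with hφ
  have hcont : Continuous φ := by
    refine continuous_finsetSum _ fun i _ => Continuous.mul ?_ continuous_const
    exact (continuous_apply i).comp (H.continuous_grad.comp (by fun_prop))
  have hderiv : ∀ t, a + t • d ≠ 0 → 0 < deriv φ t := by
    intro t ht
    obtain ⟨L, hL, hLv, -⟩ := H.hasFDerivAt_grad ht
    have h1 : HasDerivAt (fun t => grad (halfSq h) (a + t • d)) (L d) t :=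
      hL.comp_hasDerivAt (f := fun s : ℝ => a + s • d) t
        (((hasDerivAt_id t).smul_const d).const_add a |>.congr_deriv (one_smul ℝ d))
    have h2 : HasDerivAt φ (∑ i, L d i * d i) t :=
      HasDerivAt.fun_sum fun i _ => ((hasDerivAt_pi.1 h1) i).mul_const (d i)
    rw [h2.deriv]
    refine lt_of_lt_of_eq (H.curved _ ht d hd0) ?_
    refine Finset.sum_congr rfl fun i _ => ?_
    rw [hLv, Finset.sum_mul]
    exact Finset.sum_congr rfl fun k _ => by ring
  obtain ⟨t₀, ht₀⟩ : ∃ t₀ : ℝ, ∀ t, t ≠ t₀ → a + t • d ≠ 0 := by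
    by_cases hex : ∃ t : ℝ, a + t • d = 0
    · obtain ⟨t₀, h0⟩ := hex
      refine ⟨t₀, fun t ht h1 => ht ?_⟩
      have : (t - t₀) • d = 0 := by
        rw [sub_smul]
        linear_combination (norm := module) h1 - h0
      exact sub_eq_zero.1 ((smul_eq_zero.1 this).resolve_right hd0)
    · exact ⟨0, fun t _ h1 => hex ⟨t, h1⟩⟩
  have hmono : StrictMono φ := by
    have h1 : StrictMonoOn φ (Iic t₀) := strictMonoOn_of_deriv_pos (convex_Iic _) hcont.continuousOn
      fun t ht => hderiv t (ht₀ t (by rw [interior_Iic] at ht; exact ne_of_lt ht))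
    have h2 : StrictMonoOn φ (Ici t₀) := strictMonoOn_of_deriv_pos (convex_Ici _) hcont.continuousOn
      fun t ht => hderiv t (ht₀ t (by rw [interior_Ici] at ht; exact ne_of_gt ht))
    exact h1.Iic_union_Ici h2
  have h01 := hmono (zero_lt_one : (0 : ℝ) < 1)
  have e : φ 0 = φ 1 := by simp [hφ, hd, hab]
  exact absurd e h01.ne

lemma euler (y : V3) : ∑ i, grad (halfSq h) y i * y i = 2 * halfSq h y := by
  rcases eq_or_ne y 0 with rfl | hy
  · simp [halfSq, H.zero]
  have h1 : HasDerivAt (fun t : ℝ => halfSq h (t • y)) (∑ i, grad (halfSq h) y i * y i) 1 := by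
    rw [← fderiv_eq_dot]
    have h2 := ((H.differentiable_halfSq ((1 : ℝ) • y)).hasFDerivAt.comp_hasDerivAt (1 : ℝ)
      (f := fun s : ℝ => s • y) ((hasDerivAt_id (1 : ℝ)).smul_const y))
    simp only [one_smul] at h2
    exact h2
  have h3 : HasDerivAt (fun t : ℝ => halfSq h (t • y)) (2 * halfSq h y) 1 := by
    have h4 : HasDerivAt (fun t : ℝ => t ^ 2 * halfSq h y) (2 * halfSq h y) 1 := by
      simpa using (hasDerivAt_pow 2 (1 : ℝ)).mul_const (halfSq h y)
    refine h4.congr_of_eventuallyEq ?_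
    filter_upwards [Ioi_mem_nhds (zero_lt_one : (0 : ℝ) < 1)] with t ht
    exact H.halfSq_scale (le_of_lt ht) y
  exact h1.unique h3

lemma grad_tangent (y u : V3) :
    halfSq h y + ∑ i, grad (halfSq h) y i * (u i - y i) ≤ halfSq h u := by
  set d := u - y with hd
  rcases eq_or_ne d 0 with h0 | hd0
  · obtain rfl : u = y := sub_eq_zero.1 h0
    simp
  set φ : ℝ → ℝ := fun t => halfSq h (y + t • d) with hφ
  have hder : ∀ t, HasDerivAt φ (∑ i, grad (halfSq h) (y + t • d) i * d i) t := fun t => by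
    rw [← fderiv_eq_dot]
    exact (H.differentiable_halfSq _).hasFDerivAt.comp_hasDerivAt t
      (((hasDerivAt_id t).smul_const d).const_add y |>.congr_deriv (one_smul ℝ d))
  have hconv : ConvexOn ℝ univ φ := by
    refine MonotoneOn.convexOn_of_deriv convex_univ (continuous_iff_continuousAt.2 fun t =>
      (hder t).continuousAt).continuousOn (fun t _ => (hder t).differentiableAt.differentiableWithinAt)
      ?_
    rw [interior_univ]
    have hd' : deriv φ = fun t => ∑ i, grad (halfSq h) (y + t • d) i * d i :=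
      funext fun t => (hder t).deriv
    rw [hd']
    obtain ⟨t₀, ht₀⟩ : ∃ t₀ : ℝ, ∀ t, t ≠ t₀ → y + t • d ≠ 0 := by
      by_cases hex : ∃ t : ℝ, y + t • d = 0
      · obtain ⟨t₀, h0⟩ := hex
        refine ⟨t₀, fun t ht h1 => ht ?_⟩
        have : (t - t₀) • d = 0 := by
          rw [sub_smul]
          linear_combination (norm := module) h1 - h0
        exact sub_eq_zero.1 ((smul_eq_zero.1 this).resolve_right hd0)
      · exact ⟨0, fun t _ h1 => hex ⟨t, h1⟩⟩
    set ψ : ℝ → ℝ := fun t => ∑ i, grad (halfSq h) (y + t • d) i * d i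
    have hcont : Continuous ψ := continuous_finsetSum _ fun i _ =>
      Continuous.mul ((continuous_apply i).comp (H.continuous_grad.comp (by fun_prop))) continuous_const
    have hpos : ∀ t, y + t • d ≠ 0 → 0 < deriv ψ t := by
      intro t ht
      obtain ⟨L, hL, hLv, -⟩ := H.hasFDerivAt_grad ht
      have h1 : HasDerivAt (fun t => grad (halfSq h) (y + t • d)) (L d) t :=
        hL.comp_hasDerivAt (f := fun s : ℝ => y + s • d) t
          (((hasDerivAt_id t).smul_const d).const_add y |>.congr_deriv (one_smul ℝ d))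
      have h2 : HasDerivAt ψ (∑ i, L d i * d i) t :=
        HasDerivAt.fun_sum fun i _ => ((hasDerivAt_pi.1 h1) i).mul_const (d i)
      rw [h2.deriv]
      refine lt_of_lt_of_eq (H.curved _ ht d hd0) ?_
      refine Finset.sum_congr rfl fun i _ => ?_
      rw [hLv, Finset.sum_mul]
      exact Finset.sum_congr rfl fun k _ => by ring
    have h1 : StrictMonoOn ψ (Iic t₀) := strictMonoOn_of_deriv_pos (convex_Iic _) hcont.continuousOn
      fun t ht => hpos t (ht₀ t (by rw [interior_Iic] at ht; exact ne_of_lt ht))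
    have h2 : StrictMonoOn ψ (Ici t₀) := strictMonoOn_of_deriv_pos (convex_Ici _) hcont.continuousOn
      fun t ht => hpos t (ht₀ t (by rw [interior_Ici] at ht; exact ne_of_gt ht))
    exact (h1.Iic_union_Ici h2).monotone.monotoneOn _
  have hs := hconv.le_slope_of_hasDerivAt (mem_univ (0 : ℝ)) (mem_univ 1) zero_lt_one (hder 0)
  simp only [slope, hφ, zero_smul, add_zero, sub_zero, inv_one, one_smul, vsub_eq_sub] at hs
  simp only [hd, add_sub_cancel, Pi.sub_apply] at hs
  linarith

/-- The Cauchy-Schwarz inequality for the gradient. -/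
lemma grad_dot_le (y u : V3) : ∑ i, grad (halfSq h) y i * u i ≤ h y * h u := by
  rcases eq_or_ne u 0 with rfl | hu
  · simp [H.zero]
  rcases eq_or_ne y 0 with rfl | hy
  · simp [H.grad_zero, H.zero]
  have hy' := H.pos y hy
  have hu' := H.pos u hu
  set t := h y / h u
  have ht : 0 < t := div_pos hy' hu'
  have h1 := H.grad_tangent y (t • u)
  simp only [Pi.smul_apply, smul_eq_mul, mul_sub, Finset.sum_sub_distrib] at h1
  rw [H.euler, H.halfSq_scale ht.le, show ∑ i, grad (halfSq h) y i * (t * u i) =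
    t * ∑ i, grad (halfSq h) y i * u i by
      rw [Finset.mul_sum]; exact Finset.sum_congr rfl fun i _ => by ring] at h1
  have h2 : t * ∑ i, grad (halfSq h) y i * u i ≤ t * (h y * h u) := by
    have e1 : t ^ 2 * halfSq h u = h y ^ 2 / 2 := by
      simp only [t, halfSq]
      field_simp
    have e2 : t * (h y * h u) = h y ^ 2 := by
      simp only [t]
      field_simp
    rw [e1] at h1
    rw [e2]
    simp only [halfSq] at h1
    linarith
  exact le_of_mul_le_mul_left h2 ht

lemma exists_grad_eq (x : V3) : ∃ y, grad (halfSq h) y = x := by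
  obtain ⟨c, C, hc, -, hb⟩ := H.exists_bounds
  set ψ : V3 → ℝ := fun y => halfSq h y - ∑ i, x i * y i
  have hd : Differentiable ℝ ψ := H.differentiable_halfSq.sub (by fun_prop)
  obtain ⟨y, -, hmin⟩ := (isCompact_closedBall (0 : V3) (6 * ‖x‖ / c ^ 2 + 1)).exists_isMinOn
    ⟨0, mem_closedBall_self (by positivity)⟩ hd.continuous.continuousOn
  refine ⟨y, ?_⟩
  have hglob : ∀ z, ψ y ≤ ψ z := fun z => by
    by_cases hz : z ∈ closedBall (0 : V3) (6 * ‖x‖ / c ^ 2 + 1)
    · exact hmin hz
    · refine (hmin (mem_closedBall_self (by positivity))).trans ?_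
      rw [mem_closedBall_zero_iff, not_le] at hz
      show halfSq h 0 - ∑ i, x i * (0 : V3) i ≤ halfSq h z - ∑ i, x i * z i
      have h3 := PairAux.dot_le x z
      have hs : (c * ‖z‖) ^ 2 ≤ h z ^ 2 := pow_le_pow_left₀ (by positivity) (hb z).1 2
      have h4 : 6 * ‖x‖ ≤ c ^ 2 * ‖z‖ := by
        have h5 : 6 * ‖x‖ / c ^ 2 ≤ ‖z‖ := by linarith
        rw [div_le_iff₀ (by positivity)] at h5
        linarith
      simp only [halfSq, H.zero, Pi.zero_apply, mul_zero, Finset.sum_const_zero]
      push_cast at h3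
      nlinarith [mul_le_mul_of_nonneg_right h4 (norm_nonneg z)]
  have h0 : fderiv ℝ ψ y = 0 := IsLocalMin.fderiv_eq_zero (Eventually.of_forall hglob)
  funext i
  let lin : V3 →L[ℝ] ℝ := ∑ j, x j • ContinuousLinearMap.proj j
  have hψ : ψ = fun z => halfSq h z - lin z := by
    funext z; simp [ψ, lin]
  have h2 : fderiv ℝ ψ y = fderiv ℝ (halfSq h) y - lin := by
    rw [hψ]
    exact ((H.differentiable_halfSq y).hasFDerivAt.sub lin.hasFDerivAt).fderiv
  rw [h0, eq_comm, sub_eq_zero] at h2
  simp [grad, h2, lin, Pi.single_apply]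

/-! ### The body and its gauge -/

lemma wulff_nhds : wulffBody h ∈ 𝓝 (0 : V3) := by
  obtain ⟨c, C, hc, -, hb⟩ := H.exists_bounds
  refine mem_of_superset (ball_mem_nhds _ (show (0 : ℝ) < c / 3 by positivity)) fun x hx y => ?_
  rw [mem_ball_zero_iff] at hx
  refine (PairAux.dot_le y x).trans (le_trans ?_ (hb y).1)
  push_cast
  nlinarith [norm_nonneg y]

lemma wulff_compact : IsCompact (wulffBody h) := by
  obtain ⟨c, C, -, hC, hb⟩ := H.exists_bounds
  have hcl : IsClosed (wulffBody h) := by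
    have : wulffBody h = ⋂ y : V3, {x | ∑ i, y i * x i ≤ h y} := by ext x; simp [wulffBody]
    rw [this]
    exact isClosed_iInter fun y => isClosed_le (by fun_prop) continuous_const
  refine (isCompact_closedBall (0 : V3) C).of_isClosed_subset hcl fun x hx => ?_
  rw [mem_closedBall_zero_iff, pi_norm_le_iff_of_nonneg hC.le]
  intro i
  rw [Real.norm_eq_abs, abs_le]
  have h1 : ∑ j, (Pi.single i (1 : ℝ) : V3) j * x j ≤ h (Pi.single i 1) := hx _
  have h2 : ∑ j, (Pi.single i (-1 : ℝ) : V3) j * x j ≤ h (Pi.single i (-1)) := hx _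
  have h3 := (hb (Pi.single i 1)).2
  have h4 := (hb (Pi.single i (-1))).2
  simp [Pi.single_apply, ite_mul, Pi.norm_single] at h1 h2 h3 h4
  constructor <;> linarith

omit H in
lemma wulff_convex : Convex ℝ (wulffBody h) := by
  intro x hx z hz a b ha hb hab y
  have e : ∑ i, y i * (a • x + b • z) i = a * ∑ i, y i * x i + b * ∑ i, y i * z i := by
    simp [mul_add, Finset.sum_add_distrib, Finset.mul_sum, mul_left_comm]
  rw [e]
  calc a * ∑ i, y i * x i + b * ∑ i, y i * z i ≤ a * h y + b * h y :=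
        add_le_add (mul_le_mul_of_nonneg_left (hx y) ha) (mul_le_mul_of_nonneg_left (hz y) hb)
    _ = h y := by rw [← add_mul, hab, one_mul]

lemma wulff_neg (x : V3) (hx : x ∈ wulffBody h) : -x ∈ wulffBody h := fun y => by
  have h1 : ∑ i, (-y) i * x i ≤ h (-y) := hx (-y)
  rw [H.even] at h1
  simpa using h1

lemma isBody_wulff : IsBody (wulffBody h) :=
  ⟨H.wulff_compact, wulff_convex, H.wulff_neg, ENNReal.toReal_pos
    (Measure.measure_pos_of_nonempty_interior _
      ⟨0, mem_interior_iff_mem_nhds.2 H.wulff_nhds⟩).ne' H.wulff_compact.measure_lt_top.ne⟩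

lemma gauge_grad (y : V3) : gauge (wulffBody h) (grad (halfSq h) y) = h y := by
  rcases eq_or_ne y 0 with rfl | hy
  · simp [H.grad_zero, H.zero]
  have hy' := H.pos y hy
  refine le_antisymm (gauge_le_of_mem hy'.le ?_) ?_
  · refine (mem_smul_set_iff_inv_smul_mem₀ hy'.ne' _ _).2 fun u => ?_
    rw [sum_mul_smul, inv_mul_le_iff₀ hy']
    exact le_of_eq_of_le (Finset.sum_congr rfl fun i _ => mul_comm _ _) (H.grad_dot_le y u)
  · by_contra hlt
    push Not at hlt
    obtain ⟨r, hr0, hr, hmem⟩ :=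
      exists_lt_of_gauge_lt (absorbent_nhds_zero H.wulff_nhds) hlt
    obtain ⟨z, hz, hze⟩ := hmem
    have h1 : ∑ i, y i * grad (halfSq h) y i ≤ r * h y := by
      rw [← hze]
      exact le_of_eq_of_le (sum_mul_smul y z r) (mul_le_mul_of_nonneg_left (hz y) hr0.le)
    have h2 := H.euler y
    rw [Finset.sum_congr rfl fun i _ => mul_comm (y i) _] at h1
    rw [h2] at h1
    simp only [halfSq] at h1
    nlinarith [mul_lt_mul_of_pos_right hr hy']

lemma wulff_vol : Real.Gamma (5 / 2) * vol (wulffBody h) =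
    ∫ x, Real.exp (-(gauge (wulffBody h) x) ^ 2) := by
  set W := wulffBody h
  have habs : Absorbent ℝ W := absorbent_nhds_zero H.wulff_nhds
  have hb : Bornology.IsVonNBounded ℝ W :=
    NormedSpace.isVonNBounded_of_isBounded _ H.wulff_compact.isBounded
  have h1 : gauge W 0 = 0 := gauge_zero
  have h2 : ∀ x, gauge W (-x) = gauge W x := gauge_neg H.wulff_neg
  have h3 : ∀ x y, gauge W (x + y) ≤ gauge W x + gauge W y := gauge_add_le wulff_convex habs
  have h4 : ∀ {x}, gauge W x = 0 → x = 0 := fun {x} hx => (gauge_eq_zero habs hb).1 hx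
  have h5 : ∀ (r : ℝ) x, gauge W (r • x) ≤ |r| * gauge W x := fun r x => by
    rcases le_total 0 r with hr | hr
    · rw [gauge_smul_of_nonneg hr, smul_eq_mul, abs_of_nonneg hr]
    · rw [← h2, ← neg_smul, gauge_smul_of_nonneg (neg_nonneg.2 hr), smul_eq_mul, abs_of_nonpos hr]
  have hset : {x : V3 | gauge W x ≤ 1} = W := by
    ext x
    constructor
    · intro hx
      have := (gauge_le_one_iff_mem_closure wulff_convex H.wulff_nhds).1 hx
      rwa [H.wulff_compact.isClosed.closure_eq] at this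
    · exact fun hx => gauge_le_one_of_mem hx
  have hle := MeasureTheory.measure_le_eq_lt (μ := (volume : Measure V3)) h1 h2 h3 h4 h5 1
  have hm := MeasureTheory.measure_lt_one_eq_integral_div_gamma (μ := (volume : Measure V3))
    h1 h2 h3 h4 h5 (p := 2) (by norm_num)
  rw [← hle, hset] at hm
  have hfin : Module.finrank ℝ V3 = 3 := by simp
  have hI : 0 ≤ ∫ x : V3, Real.exp (-(gauge W x) ^ (2 : ℝ)) :=
    integral_nonneg fun x => (Real.exp_pos _).le
  have hG : 0 < Real.Gamma (5 / 2) := Real.Gamma_pos_of_pos (by norm_num)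
  rw [vol, hm, hfin, show ((3 : ℕ) : ℝ) / 2 + 1 = 5 / 2 by norm_num,
    ENNReal.toReal_ofReal (div_nonneg hI hG.le)]
  rw [mul_div_cancel₀ _ hG.ne']
  simp only [Real.rpow_two]

/-- The volume as a Gaussian integral. -/
theorem volume_formula : Real.Gamma (5 / 2) * vol (wulffBody h) =
    ∫ y in ({0}ᶜ : Set V3), (hess (halfSq h) y).det * Real.exp (-(h y) ^ 2) := by
  choose L hL hLv hdet using fun y : {y : V3 // y ≠ 0} => H.hasFDerivAt_grad y.2
  classical
  let f' : V3 → V3 →L[ℝ] V3 := fun y => if hy : y ≠ 0 then L ⟨y, hy⟩ else 0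
  have hf' : ∀ y ∈ ({0}ᶜ : Set V3), HasFDerivWithinAt (grad (halfSq h)) (f' y) {0}ᶜ y := by
    intro y hy
    have hy0 : y ≠ 0 := hy
    simp only [f', dif_pos hy0]
    exact (hL ⟨y, hy0⟩).hasFDerivWithinAt
  have himg : grad (halfSq h) '' ({0}ᶜ : Set V3) = {0}ᶜ := by
    ext x
    constructor
    · rintro ⟨y, hy, rfl⟩ h0
      exact hy (H.grad_injective ((Set.mem_singleton_iff.1 h0).trans H.grad_zero.symm))
    · intro hx
      obtain ⟨y, rfl⟩ := H.exists_grad_eq x
      exact ⟨y, fun h0 => hx (by rw [Set.mem_singleton_iff.1 h0, H.grad_zero]; rfl), rfl⟩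
  have key := integral_image_eq_integral_abs_det_fderiv_smul volume
    (measurableSet_singleton (0 : V3)).compl hf' H.grad_injective.injOn
    (fun x => Real.exp (-(gauge (wulffBody h) x) ^ 2))
  rw [himg, restrict_compl_singleton, ← H.wulff_vol] at key
  rw [key, restrict_compl_singleton]
  refine integral_congr_ae ?_
  filter_upwards [Measure.ae_ne volume (0 : V3)] with y hy
  simp only [f', dif_pos hy, hdet ⟨y, hy⟩, smul_eq_mul, H.gauge_grad,
    abs_of_pos (H.det_hess_pos hy)]

end SmoothNorm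

end Vale.Agent.P227.Mirror
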